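import Mathlib

/-!
The random triangle removal process on graphs given by their edge sets.
-/

namespace Vale.Agent.P046

open Finset

noncomputable section

/-- The edges of the complete graph on `Fin n`, as two-element vertex sets. -/
def completeEdges (n : ℕ) : Finset (Finset (Fin n)) := (univ : Finset (Fin n)).powersetCard 2

/-- The triangles of an edge set: triples of vertices all of whose three pairs are edges. -/
def triangles {n : ℕ} (G : Finset (Finset (Fin n))) : Finset (Finset (Fin n)) :=
  ((univ : Finset (Fin n)).powersetCard 3).filter fun T => T.powersetCard 2 ⊆ G

/-- The expectation of `φ` of the number of edges left when repeatedly a uniformly chosen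
triangle is deleted (its three edges) until no triangle is present. -/
def leaveExp {n : ℕ} (φ : ℕ → ℝ) (G : Finset (Finset (Fin n))) : ℝ :=
  if triangles G = ∅ then φ G.card
  else (∑ T ∈ (triangles G).attach, leaveExp φ (G \ T.1.powersetCard 2)) / (triangles G).card
termination_by G.card
decreasing_by
  obtain ⟨h3, hsub⟩ := mem_filter.1 T.2
  apply card_lt_card
  refine sdiff_ssubset hsub ?_
  rw [powersetCard_nonempty, (mem_powersetCard.1 h3).2]; norm_num

end

end Vale.Agent.P046
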