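import Vale.Agent.P046.Upper
import Vale.Agent.P046.Process

/-!
Triangle removal as greedy matching in the hypergraph of triangles.
-/

namespace Vale.Agent.P046

open Finset

noncomputable section

variable {n : ℕ}

/-- The hyperedges attached to the triangles of `G`. -/
def triHyper (G : Finset (Finset (Fin n))) : Finset (Finset (Finset (Fin n))) :=
  (triangles G).image fun T => T.powersetCard 2

lemma powersetTwo_injOn {T R : Finset (Fin n)} (hT : T.card = 3) (hR : R.card = 3)
    (h : T.powersetCard 2 = R.powersetCard 2) : T = R := by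
  have key : ∀ A B : Finset (Fin n), A.card = 3 → A.powersetCard 2 = B.powersetCard 2 → A ⊆ B := by
    intro A B hA h x hx
    obtain ⟨y, hy, hyx⟩ := exists_mem_ne (s := A) (by omega) x
    have : ({x, y} : Finset (Fin n)) ∈ A.powersetCard 2 := by
      rw [mem_powersetCard]
      exact ⟨by simp [insert_subset_iff, hx, hy], card_pair hyx.symm⟩
    rw [h, mem_powersetCard] at this
    exact this.1 (by simp)
  exact Subset.antisymm (key T R hT h) (key R T hR h.symm)

lemma card_triangle {G : Finset (Finset (Fin n))} {T : Finset (Fin n)} (h : T ∈ triangles G) :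
    T.card = 3 := (mem_powersetCard.1 (mem_filter.1 h).1).2

lemma card_triHyper (G : Finset (Finset (Fin n))) : (triHyper G).card = (triangles G).card :=
  card_image_of_injOn fun _ hT _ hR h =>
    powersetTwo_injOn (card_triangle hT) (card_triangle hR) h

lemma triHyper_lin (G : Finset (Finset (Fin n))) : Lin G (triHyper G) where
  sub R hR := by
    obtain ⟨T, hT, rfl⟩ := mem_image.1 hR
    exact (mem_filter.1 hT).2
  three R hR := by
    obtain ⟨T, hT, rfl⟩ := mem_image.1 hR
    rw [card_powersetCard, card_triangle hT]; decide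
  inter R hR S hS hne := by
    obtain ⟨T, hT, rfl⟩ := mem_image.1 hR
    obtain ⟨U, hU, rfl⟩ := mem_image.1 hS
    have hTU : T ≠ U := fun h => hne (h ▸ rfl)
    have : (T ∩ U).card ≤ 2 := by
      by_contra hc
      have h1 : T ∩ U = T := eq_of_subset_of_card_le inter_subset_left (by
        rw [card_triangle hT]; omega)
      have h2 : T ∩ U = U := eq_of_subset_of_card_le inter_subset_right (by
        rw [card_triangle hU]; omega)
      exact hTU (h1 ▸ h2)
    have e : T.powersetCard 2 ∩ U.powersetCard 2 = (T ∩ U).powersetCard 2 := by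
      ext x; simp only [mem_inter, mem_powersetCard, subset_inter_iff]; tauto
    rw [e, card_powersetCard]
    exact le_trans (Nat.choose_le_choose 2 this) (by decide)

lemma triHyper_next (G : Finset (Finset (Fin n))) (T : Finset (Fin n)) :
    triHyper (G \ T.powersetCard 2) = nextE (triHyper G) (T.powersetCard 2) := by
  unfold triHyper nextE
  rw [filter_image]
  congr 1
  ext R
  simp only [triangles, mem_filter]
  constructor
  · rintro ⟨h1, h2⟩
    exact ⟨⟨h1, h2.trans sdiff_subset⟩,
      disjoint_left.2 fun x hx hx' => (mem_sdiff.1 (h2 hx')).2 hx⟩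
  · rintro ⟨⟨h1, h2⟩, h3⟩
    exact ⟨h1, fun x hx => mem_sdiff.2 ⟨h2 hx, fun hxT => disjoint_left.1 h3 hxT hx⟩⟩

lemma leaveExp_eq (φ : ℕ → ℝ) : ∀ (k : ℕ) (G : Finset (Finset (Fin n))),
    (triangles G).card ≤ k →
      leaveExp φ G = expEnd (fun W => φ W.card) k G (triHyper G) := by
  intro k
  induction k with
  | zero =>
    intro G h
    rw [leaveExp, if_pos (card_eq_zero.1 (Nat.le_zero.1 h))]; rfl
  | succ k ih =>
    intro G h
    rw [leaveExp, expEnd, card_triHyper]
    by_cases h0 : triangles G = ∅
    · simp [h0]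
    · rw [if_neg h0, if_neg (fun hc => h0 (card_eq_zero.1 hc))]
      congr 1
      rw [sum_attach (triangles G) (fun T => leaveExp φ (G \ T.powersetCard 2)), triHyper,
        sum_image fun _ hT _ hR h => powersetTwo_injOn (card_triangle hT) (card_triangle hR) h]
      refine sum_congr rfl fun T hT => ?_
      rw [← triHyper, ← triHyper_next]
      refine ih _ ?_
      have h1 : (triangles (G \ T.powersetCard 2)).card < (triangles G).card := by
        rw [← card_triHyper, ← card_triHyper, triHyper_next]
        refine nextE_card_lt (mem_image_of_mem _ hT) ?_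
        rw [powersetCard_nonempty, card_triangle hT]; norm_num
      omega

lemma deg_complete {e : Finset (Fin n)} (he : e ∈ completeEdges n) :
    deg (triHyper (completeEdges n)) e = n - 2 := by
  have he2 : e.card = 2 := (mem_powersetCard.1 he).2
  unfold deg triHyper
  rw [filter_image, card_image_of_injOn fun _ hT _ hR h =>
    powersetTwo_injOn (card_triangle (mem_filter.1 hT).1) (card_triangle (mem_filter.1 hR).1) h]
  have : (triangles (completeEdges n)).filter (fun T => e ∈ T.powersetCard 2)
      = eᶜ.image fun z => insert z e := by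
    ext T
    rw [mem_filter, mem_image]
    constructor
    · rintro ⟨hT, hsub'⟩
      have hT := card_triangle hT
      have hsub := (mem_powersetCard.1 hsub').1
      obtain ⟨z, hz⟩ := card_eq_one.1 (show (T \ e).card = 1 by
        rw [card_sdiff_of_subset hsub, hT, he2])
      have hz' : z ∈ T \ e := by rw [hz]; simp
      refine ⟨z, mem_compl.2 (mem_sdiff.1 hz').2, ?_⟩
      rw [insert_eq, ← hz, sdiff_union_of_subset hsub]
    · rintro ⟨z, hz, rfl⟩
      rw [mem_compl] at hz
      refine ⟨mem_filter.2 ⟨mem_powersetCard.2 ⟨subset_univ _, ?_⟩, ?_⟩,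
        mem_powersetCard.2 ⟨subset_insert _ _, he2⟩⟩
      · rw [card_insert_of_notMem hz, he2]
      · exact powersetCard_mono (subset_univ _)
  rw [this, card_image_of_injOn, card_compl, Fintype.card_fin, he2]
  intro z hz w hw h
  simp only [coe_compl, Set.mem_compl_iff, mem_coe] at hz hw
  have : z ∈ insert w e := by rw [← show insert z e = insert w e from h]; exact mem_insert_self z e
  simpa [hz] using this

/-- The expected number of edges left by triangle removal on the complete graph. -/
theorem leave_upper :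
    ∃ C : ℝ, ∀ n : ℕ, 3 ≤ n →
      leaveExp (fun k => (k : ℝ)) (completeEdges n)
        ≤ C * (n : ℝ) ^ (3 / 2 : ℝ) * √(Real.log n) := by
  refine ⟨400000000000, fun n hn => ?_⟩
  rw [leaveExp_eq _ _ _ le_rfl, ← card_triHyper]
  refine ((triHyper_lin _).expEnd_regular_le (d := n - 2) (by omega)
    fun e he => deg_complete he).trans ?_
  have hn' : (3:ℝ) ≤ n := by exact_mod_cast hn
  have hd : ((n - 2 : ℕ) : ℝ) = n - 2 := by rw [Nat.cast_sub (by omega)]; norm_num
  have hlog1 : 1 ≤ Real.log n := by
    rw [Real.le_log_iff_exp_le (by linarith)]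
    linarith [Real.exp_one_lt_three]
  have h1 : √(lg ((n - 2 : ℕ) : ℝ)) ≤ 2 * √(Real.log n) := by
    calc √(lg ((n - 2 : ℕ) : ℝ)) ≤ √(2 ^ 2 * Real.log n) := by
          apply Real.sqrt_le_sqrt
          have hs : √((n - 2 : ℕ) : ℝ) ≤ n - 1 := by
            rw [Real.sqrt_le_left (by linarith), hd]; nlinarith
          have : Real.log (1 + √((n - 2 : ℕ) : ℝ)) ≤ Real.log n :=
            Real.log_le_log (by positivity) (by linarith)
          unfold lg; linarith
      _ = _ := by rw [Real.sqrt_mul (by norm_num), Real.sqrt_sq (by norm_num)]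
  have hr : (n : ℝ) ^ (3 / 2 : ℝ) = n * √(n : ℝ) := by
    rw [show (3 / 2 : ℝ) = 1 + 1 / 2 by norm_num, Real.rpow_add (by linarith), Real.rpow_one,
      ← Real.sqrt_eq_rpow]
  have h2 : ((completeEdges n).card : ℝ) / √((n - 2 : ℕ) : ℝ) ≤ 2 * (n : ℝ) ^ (3 / 2 : ℝ) := by
    have hc : ((completeEdges n).card : ℝ) = (n * (n - 1)) / 2 := by
      rw [completeEdges, card_powersetCard, card_univ, Fintype.card_fin,
        Nat.cast_choose_two]
    have hs : √(n : ℝ) / 2 ≤ √((n - 2 : ℕ) : ℝ) := by
      rw [show √(n : ℝ) / 2 = √((n : ℝ) / 4) by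
        rw [Real.sqrt_div' _ (by norm_num), show (4:ℝ) = 2 ^ 2 by norm_num,
          Real.sqrt_sq (by norm_num)]]
      apply Real.sqrt_le_sqrt; rw [hd]; linarith
    have hsn : 0 < √(n : ℝ) := Real.sqrt_pos.2 (by linarith)
    rw [hc, hr, div_le_iff₀ (by linarith)]
    have hq := Real.mul_self_sqrt (show (0:ℝ) ≤ n by linarith)
    have := mul_le_mul_of_nonneg_left hs (by positivity : (0:ℝ) ≤ 2 * ((n : ℝ) * √(n : ℝ)))
    nlinarith
  calc 100000000000 * (((completeEdges n).card : ℝ) / √((n - 2 : ℕ) : ℝ)) * √(lg ((n - 2 : ℕ) : ℝ))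
      ≤ 100000000000 * (2 * (n : ℝ) ^ (3 / 2 : ℝ)) * (2 * √(Real.log n)) := by gcongr
    _ = _ := by ring

end

end Vale.Agent.P046
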