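import Mathlib

namespace Vale.Agent.P046

theorem cert_n3_nonneg {u : ℝ} (h1 : (-1) ≤ u) (h2 : u ≤ 0) :
    0 ≤ (2 / 3) + 2 * u + 26 * u ^ 2 + (146 / 3) * u ^ 3 + 240 * u ^ 4 + 216 * u ^ 5 := by
  have hx : 0 ≤ u - (-1) := by linarith
  have hy : 0 ≤ 0 - u := by linarith
  have e : 3 * ((2 / 3) + 2 * u + 26 * u ^ 2 + (146 / 3) * u ^ 3 + 240 * u ^ 4 + 216 * u ^ 5) =
      648 * (u - (-1)) ^ 1 * (0 - u) ^ 4
      + 72 * (u - (-1)) ^ 2 * (0 - u) ^ 3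
      + 74 * (u - (-1)) ^ 3 * (0 - u) ^ 2
      + 4 * (u - (-1)) ^ 4 * (0 - u) ^ 1
      + 2 * (u - (-1)) ^ 5 * (0 - u) ^ 0 := by ring
  refine (mul_nonneg_iff_of_pos_left (by norm_num : (0:ℝ) < 3)).1 ?_
  rw [e]; positivity

theorem cert_b1_nonneg {u : ℝ} (h1 : (-1) ≤ u) (h2 : u ≤ (-21 / 25)) :
    0 ≤ (7 / 3) * u ^ 2 + 75 * u ^ 3 + 336 * u ^ 4 + (2338 / 3) * u ^ 5 + 408 * u ^ 6 - 216 * u ^ 7 := by
  have hx : 0 ≤ u - (-1) := by linarith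
  have hy : 0 ≤ (-21 / 25) - u := by linarith
  have e : 49152 * ((7 / 3) * u ^ 2 + 75 * u ^ 3 + 336 * u ^ 4 + (2338 / 3) * u ^ 5 + 408 * u ^ 6 - 216 * u ^ 7) =
      1977539062500 * (u - (-1)) ^ 0 * ((-21 / 25) - u) ^ 7
      + 10365234375000 * (u - (-1)) ^ 1 * ((-21 / 25) - u) ^ 6
      + 22845585937500 * (u - (-1)) ^ 2 * ((-21 / 25) - u) ^ 5
      + 27273606250000 * (u - (-1)) ^ 3 * ((-21 / 25) - u) ^ 4
      + 18850817937500 * (u - (-1)) ^ 4 * ((-21 / 25) - u) ^ 3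
      + 7404567415000 * (u - (-1)) ^ 5 * ((-21 / 25) - u) ^ 2
      + 1472398966500 * (u - (-1)) ^ 6 * ((-21 / 25) - u) ^ 1
      + 102923247168 * (u - (-1)) ^ 7 * ((-21 / 25) - u) ^ 0 := by ring
  refine (mul_nonneg_iff_of_pos_left (by norm_num : (0:ℝ) < 49152)).1 ?_
  rw [e]; positivity

theorem cert_a1_nonneg_lo {u : ℝ} (h1 : (-1) ≤ u) (h2 : u ≤ (-21 / 25)) :
    0 ≤ (2 / 3) - (28 / 3) * u + 10 * u ^ 2 + (206 / 3) * u ^ 3 + (866 / 3) * u ^ 4 + 456 * u ^ 5 + 216 * u ^ 6 := by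
  have hx : 0 ≤ u - (-1) := by linarith
  have hy : 0 ≤ (-21 / 25) - u := by linarith
  have e : 12288 * ((2 / 3) - (28 / 3) * u + 10 * u ^ 2 + (206 / 3) * u ^ 3 + (866 / 3) * u ^ 4 + 456 * u ^ 5 + 216 * u ^ 6) =
      703125000 * (u - (-1)) ^ 1 * ((-21 / 25) - u) ^ 5
      + 7565625000 * (u - (-1)) ^ 2 * ((-21 / 25) - u) ^ 4
      + 20693250000 * (u - (-1)) ^ 3 * ((-21 / 25) - u) ^ 3
      + 24316610000 * (u - (-1)) ^ 4 * ((-21 / 25) - u) ^ 2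
      + 13235833000 * (u - (-1)) ^ 5 * ((-21 / 25) - u) ^ 1
      + 2752627208 * (u - (-1)) ^ 6 * ((-21 / 25) - u) ^ 0 := by ring
  refine (mul_nonneg_iff_of_pos_left (by norm_num : (0:ℝ) < 12288)).1 ?_
  rw [e]; positivity

theorem cert_a1_nonneg {u : ℝ} (h1 : (-21 / 25) ≤ u) (h2 : u ≤ 0) :
    0 ≤ (2 / 3) - (28 / 3) * u + 10 * u ^ 2 + (206 / 3) * u ^ 3 + (866 / 3) * u ^ 4 + 456 * u ^ 5 + 216 * u ^ 6 := by
  have hx : 0 ≤ u - (-21 / 25) := by linarith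
  have hy : 0 ≤ 0 - u := by linarith
  have e : 257298363 * ((2 / 3) - (28 / 3) * u + 10 * u ^ 2 + (206 / 3) * u ^ 3 + (866 / 3) * u ^ 4 + 456 * u ^ 5 + 216 * u ^ 6) =
      2752627208 * (u - (-21 / 25)) ^ 0 * (0 - u) ^ 6
      + 33735397050 * (u - (-21 / 25)) ^ 1 * (0 - u) ^ 5
      + 111590216250 * (u - (-21 / 25)) ^ 2 * (0 - u) ^ 4
      + 58050531250 * (u - (-21 / 25)) ^ 3 * (0 - u) ^ 3
      + 41203125000 * (u - (-21 / 25)) ^ 4 * (0 - u) ^ 2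
      + 8671875000 * (u - (-21 / 25)) ^ 5 * (0 - u) ^ 1
      + 488281250 * (u - (-21 / 25)) ^ 6 * (0 - u) ^ 0 := by ring
  refine (mul_nonneg_iff_of_pos_left (by norm_num : (0:ℝ) < 257298363)).1 ?_
  rw [e]; positivity

theorem cert_d1_0 {u : ℝ} (h1 : (-21 / 25) ≤ u) (h2 : u ≤ (-21 / 50)) :
    0 ≤ (815 / 9) - 1646 * u - 6425 * u ^ 2 - (390860 / 9) * u ^ 3 - 185188 * u ^ 4 - 497456 * u ^ 5 - (7066804 / 9) * u ^ 6
       - 475232 * u ^ 7 + 170208 * u ^ 8 + 176256 * u ^ 9 - 46656 * u ^ 10 := by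
  have hx : 0 ≤ u - (-21 / 25) := by linarith
  have hy : 0 ≤ (-21 / 50) - u := by linarith
  have e : 150118928803809 * ((815 / 9) - 1646 * u - 6425 * u ^ 2 - (390860 / 9) * u ^ 3 - 185188 * u ^ 4 - 497456 * u ^ 5 - (7066804 / 9) * u ^ 6
       - 475232 * u ^ 7 + 170208 * u ^ 8 + 176256 * u ^ 9 - 46656 * u ^ 10) =
      220103004755908296704 * (u - (-21 / 25)) ^ 0 * ((-21 / 50) - u) ^ 10
      + 5191599120604539576320 * (u - (-21 / 25)) ^ 1 * ((-21 / 50) - u) ^ 9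
      + 14898343691575462475520 * (u - (-21 / 25)) ^ 2 * ((-21 / 50) - u) ^ 8
      + 21372936167215034165760 * (u - (-21 / 25)) ^ 3 * ((-21 / 50) - u) ^ 7
      + 30828686679481151408640 * (u - (-21 / 25)) ^ 4 * ((-21 / 50) - u) ^ 6
      + 49221435709036040857344 * (u - (-21 / 25)) ^ 5 * ((-21 / 50) - u) ^ 5
      + 56813232865898023488960 * (u - (-21 / 25)) ^ 6 * ((-21 / 50) - u) ^ 4
      + 40699877357337263784960 * (u - (-21 / 25)) ^ 7 * ((-21 / 50) - u) ^ 3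
      + 17425427070835585658880 * (u - (-21 / 25)) ^ 8 * ((-21 / 50) - u) ^ 2
      + 4125006844770857093120 * (u - (-21 / 25)) ^ 9 * ((-21 / 50) - u) ^ 1
      + 418057937675333636096 * (u - (-21 / 25)) ^ 10 * ((-21 / 50) - u) ^ 0 := by ring
  refine (mul_nonneg_iff_of_pos_left (by norm_num : (0:ℝ) < 150118928803809)).1 ?_
  rw [e]; positivity

theorem cert_d1_1 {u : ℝ} (h1 : (-21 / 50) ≤ u) (h2 : u ≤ 0) :
    0 ≤ (815 / 9) - 1646 * u - 6425 * u ^ 2 - (390860 / 9) * u ^ 3 - 185188 * u ^ 4 - 497456 * u ^ 5 - (7066804 / 9) * u ^ 6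
       - 475232 * u ^ 7 + 170208 * u ^ 8 + 176256 * u ^ 9 - 46656 * u ^ 10 := by
  have hx : 0 ≤ u - (-21 / 50) := by linarith
  have hy : 0 ≤ 0 - u := by linarith
  have e : 150118928803809 * ((815 / 9) - 1646 * u - 6425 * u ^ 2 - (390860 / 9) * u ^ 3 - 185188 * u ^ 4 - 497456 * u ^ 5 - (7066804 / 9) * u ^ 6
       - 475232 * u ^ 7 + 170208 * u ^ 8 + 176256 * u ^ 9 - 46656 * u ^ 10) =
      418057937675333636096 * (u - (-21 / 50)) ^ 0 * (0 - u) ^ 10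
      + 4236151908735815628800 * (u - (-21 / 50)) ^ 1 * (0 - u) ^ 9
      + 18425732646520212480000 * (u - (-21 / 50)) ^ 2 * (0 - u) ^ 8
      + 45441590297348976000000 * (u - (-21 / 50)) ^ 3 * (0 - u) ^ 7
      + 71332852699866975000000 * (u - (-21 / 50)) ^ 4 * (0 - u) ^ 6
      + 75544398755595000000000 * (u - (-21 / 50)) ^ 5 * (0 - u) ^ 5
      + 54592045064812500000000 * (u - (-21 / 50)) ^ 6 * (0 - u) ^ 4
      + 26283503484375000000000 * (u - (-21 / 50)) ^ 7 * (0 - u) ^ 3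
      + 8053866210937500000000 * (u - (-21 / 50)) ^ 8 * (0 - u) ^ 2
      + 1403503906250000000000 * (u - (-21 / 50)) ^ 9 * (0 - u) ^ 1
      + 79589843750000000000 * (u - (-21 / 50)) ^ 10 * (0 - u) ^ 0 := by ring
  refine (mul_nonneg_iff_of_pos_left (by norm_num : (0:ℝ) < 150118928803809)).1 ?_
  rw [e]; positivity

theorem cert_m3_nonneg {u : ℝ} (h1 : 0 ≤ u) (h2 : u ≤ 2) :
    0 ≤ (2 / 3) + (8 / 3) * u + 28 * u ^ 2 + (224 / 3) * u ^ 3 + (866 / 3) * u ^ 4 + 456 * u ^ 5 + 216 * u ^ 6 := by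
  have hx : 0 ≤ u - 0 := by linarith
  have hy : 0 ≤ 2 - u := by linarith
  have e : 192 * ((2 / 3) + (8 / 3) * u + 28 * u ^ 2 + (224 / 3) * u ^ 3 + (866 / 3) * u ^ 4 + 456 * u ^ 5 + 216 * u ^ 6) =
      2 * (u - 0) ^ 0 * (2 - u) ^ 6
      + 28 * (u - 0) ^ 1 * (2 - u) ^ 5
      + 446 * (u - 0) ^ 2 * (2 - u) ^ 4
      + 3336 * (u - 0) ^ 3 * (2 - u) ^ 3
      + 21438 * (u - 0) ^ 4 * (2 - u) ^ 2
      + 78300 * (u - 0) ^ 5 * (2 - u) ^ 1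
      + 101250 * (u - 0) ^ 6 * (2 - u) ^ 0 := by ring
  refine (mul_nonneg_iff_of_pos_left (by norm_num : (0:ℝ) < 192)).1 ?_
  rw [e]; positivity

theorem cert_n2_nonneg {u : ℝ} (h1 : 0 ≤ u) (h2 : u ≤ 2) :
    0 ≤ 3 + (112 / 5) * u + (899 / 5) * u ^ 2 + (1918 / 5) * u ^ 3 + (5652 / 5) * u ^ 4 + 648 * u ^ 5 := by
  have hx : 0 ≤ u - 0 := by linarith
  have hy : 0 ≤ 2 - u := by linarith
  have e : 160 * (3 + (112 / 5) * u + (899 / 5) * u ^ 2 + (1918 / 5) * u ^ 3 + (5652 / 5) * u ^ 4 + 648 * u ^ 5) =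
      15 * (u - 0) ^ 0 * (2 - u) ^ 5
      + 299 * (u - 0) ^ 1 * (2 - u) ^ 4
      + 4642 * (u - 0) ^ 2 * (2 - u) ^ 3
      + 27626 * (u - 0) ^ 3 * (2 - u) ^ 2
      + 132879 * (u - 0) ^ 4 * (2 - u) ^ 1
      + 213291 * (u - 0) ^ 5 * (2 - u) ^ 0 := by ring
  refine (mul_nonneg_iff_of_pos_left (by norm_num : (0:ℝ) < 160)).1 ?_
  rw [e]; positivity

theorem cert_c22_nonneg {u : ℝ} (h1 : 0 ≤ u) (h2 : u ≤ (3 / 40)) :
    0 ≤ (2 / 3) - (22 / 3) * u + 6 * u ^ 2 - (3164 / 15) * u ^ 3 - (176 / 15) * u ^ 4 - (9806 / 5) * u ^ 5 + (144 / 5) * u ^ 6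
       + 648 * u ^ 7 := by
  have hx : 0 ≤ u - 0 := by linarith
  have hy : 0 ≤ (3 / 40) - u := by linarith
  have e : 6561 * ((2 / 3) - (22 / 3) * u + 6 * u ^ 2 - (3164 / 15) * u ^ 3 - (176 / 15) * u ^ 4 - (9806 / 5) * u ^ 5 + (144 / 5) * u ^ 6
       + 648 * u ^ 7) =
      327680000000 * (u - 0) ^ 0 * ((3 / 40) - u) ^ 7
      + 2023424000000 * (u - 0) ^ 1 * ((3 / 40) - u) ^ 6
      + 5275852800000 * (u - 0) ^ 2 * ((3 / 40) - u) ^ 5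
      + 7452964864000 * (u - 0) ^ 3 * ((3 / 40) - u) ^ 4
      + 6052828979200 * (u - 0) ^ 4 * ((3 / 40) - u) ^ 3
      + 2726858209920 * (u - 0) ^ 5 * ((3 / 40) - u) ^ 2
      + 574611457664 * (u - 0) ^ 6 * ((3 / 40) - u) ^ 1
      + 27730414472 * (u - 0) ^ 7 * ((3 / 40) - u) ^ 0 := by ring
  refine (mul_nonneg_iff_of_pos_left (by norm_num : (0:ℝ) < 6561)).1 ?_
  rw [e]; positivity

theorem cert_d2 {u : ℝ} (h1 : (3 / 40) ≤ u) (h2 : u ≤ 2) :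
    0 ≤ -(4 / 9) + (88 / 9) * u - (484 / 9) * u ^ 2 + (20744 / 45) * u ^ 3 - (92684 / 45) * u ^ 4 + (509384 / 45) * u ^ 5 - (8045296 / 225) * u ^ 6
       + (35983912 / 225) * u ^ 7 - (14364008 / 45) * u ^ 8 + (3476336 / 3) * u ^ 9 - (6092276 / 5) * u ^ 10 + (81741888 / 25) * u ^ 11 + (117487584 / 25) * u ^ 12
       + (2612736 / 5) * u ^ 13 - 419904 * u ^ 14 := by
  have hx : 0 ≤ u - (3 / 40) := by linarith
  have hy : 0 ≤ 2 - u := by linarith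
  have e : 2317995891420498787036712481 * (-(4 / 9) + (88 / 9) * u - (484 / 9) * u ^ 2 + (20744 / 45) * u ^ 3 - (92684 / 45) * u ^ 4 + (509384 / 45) * u ^ 5 - (8045296 / 225) * u ^ 6
       + (35983912 / 225) * u ^ 7 - (14364008 / 45) * u ^ 8 + (3476336 / 3) * u ^ 9 - (6092276 / 5) * u ^ 10 + (81741888 / 25) * u ^ 11 + (117487584 / 25) * u ^ 12
       + (2612736 / 5) * u ^ 13 - 419904 * u ^ 14) =
      33361534785222707220416 * (u - (3 / 40)) ^ 0 * (2 - u) ^ 14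
      + 3941586059233090514663424 * (u - (3 / 40)) ^ 1 * (2 - u) ^ 13
      + 64417511752547366588872704 * (u - (3 / 40)) ^ 2 * (2 - u) ^ 12
      + 1044342394914856660168376320 * (u - (3 / 40)) ^ 3 * (2 - u) ^ 11
      + 12113331798854270261355724800 * (u - (3 / 40)) ^ 4 * (2 - u) ^ 10
      + 144019221237571607239065600000 * (u - (3 / 40)) ^ 5 * (2 - u) ^ 9
      + 1330033561665324828517990400000 * (u - (3 / 40)) ^ 6 * (2 - u) ^ 8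
      + 10974769740929638539932467200000 * (u - (3 / 40)) ^ 7 * (2 - u) ^ 7
      + 70390058747307545535184896000000 * (u - (3 / 40)) ^ 8 * (2 - u) ^ 6
      + 400116366057772405531607040000000 * (u - (3 / 40)) ^ 9 * (2 - u) ^ 5
      + 1804246915259749915164672000000000 * (u - (3 / 40)) ^ 10 * (2 - u) ^ 4
      + 6793630863480911969648640000000000 * (u - (3 / 40)) ^ 11 * (2 - u) ^ 3
      + 15822595304944514346516480000000000 * (u - (3 / 40)) ^ 12 * (2 - u) ^ 2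
      + 16933992019884285257318400000000000 * (u - (3 / 40)) ^ 13 * (2 - u) ^ 1
      + 5466948849582175420416000000000000 * (u - (3 / 40)) ^ 14 * (2 - u) ^ 0 := by ring
  refine (mul_nonneg_iff_of_pos_left (by norm_num : (0:ℝ) < 2317995891420498787036712481)).1 ?_
  rw [e]; positivity

theorem cert_p3_nonneg {u : ℝ} (h1 : (-1) ≤ u) (h2 : u ≤ 0) :
    0 ≤ (10 / 3) + 10 * u + 130 * u ^ 2 + (730 / 3) * u ^ 3 + 1200 * u ^ 4 + 1080 * u ^ 5 := by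
  have hx : 0 ≤ u - (-1) := by linarith
  have hy : 0 ≤ 0 - u := by linarith
  have e : 3 * ((10 / 3) + 10 * u + 130 * u ^ 2 + (730 / 3) * u ^ 3 + 1200 * u ^ 4 + 1080 * u ^ 5) =
      3240 * (u - (-1)) ^ 1 * (0 - u) ^ 4
      + 360 * (u - (-1)) ^ 2 * (0 - u) ^ 3
      + 370 * (u - (-1)) ^ 3 * (0 - u) ^ 2
      + 20 * (u - (-1)) ^ 4 * (0 - u) ^ 1
      + 10 * (u - (-1)) ^ 5 * (0 - u) ^ 0 := by ring
  refine (mul_nonneg_iff_of_pos_left (by norm_num : (0:ℝ) < 3)).1 ?_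
  rw [e]; positivity

theorem cert_c31_nonneg {u : ℝ} (h1 : (-1) ≤ u) (h2 : u ≤ (-1 / 5)) :
    0 ≤ -3 - 77 * u + 286 * u ^ 2 - 504 * u ^ 3 - 648 * u ^ 4 := by
  have hx : 0 ≤ u - (-1) := by linarith
  have hy : 0 ≤ (-1 / 5) - u := by linarith
  have e : 256 * (-3 - 77 * u + 286 * u ^ 2 - 504 * u ^ 3 - 648 * u ^ 4) =
      135000 * (u - (-1)) ^ 0 * ((-1 / 5) - u) ^ 4
      + 755500 * (u - (-1)) ^ 1 * ((-1 / 5) - u) ^ 3
      + 620500 * (u - (-1)) ^ 2 * ((-1 / 5) - u) ^ 2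
      + 182660 * (u - (-1)) ^ 3 * ((-1 / 5) - u) ^ 1
      + 16772 * (u - (-1)) ^ 4 * ((-1 / 5) - u) ^ 0 := by ring
  refine (mul_nonneg_iff_of_pos_left (by norm_num : (0:ℝ) < 256)).1 ?_
  rw [e]; positivity

theorem cert_c32_nonneg {u : ℝ} (h1 : (-1) ≤ u) (h2 : u ≤ (-1 / 5)) :
    0 ≤ (2 / 3) + 16 * u + 32 * u ^ 2 - (988 / 3) * u ^ 3 - 490 * u ^ 4 - 3384 * u ^ 5 - 3240 * u ^ 6 := by
  have hx : 0 ≤ u - (-1) := by linarith
  have hy : 0 ≤ (-1 / 5) - u := by linarith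
  have e : 12288 * ((2 / 3) + 16 * u + 32 * u ^ 2 - (988 / 3) * u ^ 3 - 490 * u ^ 4 - 3384 * u ^ 5 - 3240 * u ^ 6) =
      129150000 * (u - (-1)) ^ 1 * ((-1 / 5) - u) ^ 5
      + 145350000 * (u - (-1)) ^ 2 * ((-1 / 5) - u) ^ 4
      + 72076000 * (u - (-1)) ^ 3 * ((-1 / 5) - u) ^ 3
      + 17964000 * (u - (-1)) ^ 4 * ((-1 / 5) - u) ^ 2
      + 1970160 * (u - (-1)) ^ 5 * ((-1 / 5) - u) ^ 1
      + 69040 * (u - (-1)) ^ 6 * ((-1 / 5) - u) ^ 0 := by ring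
  refine (mul_nonneg_iff_of_pos_left (by norm_num : (0:ℝ) < 12288)).1 ?_
  rw [e]; positivity

theorem cert_a3_nonneg {u : ℝ} (h1 : (-1 / 5) ≤ u) (h2 : u ≤ 0) :
    0 ≤ (2 / 3) + (28 / 3) * u + 12 * u ^ 2 - (1768 / 3) * u ^ 3 - (2930 / 3) * u ^ 4 - 5784 * u ^ 5 - 5400 * u ^ 6 := by
  have hx : 0 ≤ u - (-1 / 5) := by linarith
  have hy : 0 ≤ 0 - u := by linarith
  have e : 3 * ((2 / 3) + (28 / 3) * u + 12 * u ^ 2 - (1768 / 3) * u ^ 3 - (2930 / 3) * u ^ 4 - 5784 * u ^ 5 - 5400 * u ^ 6) =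
      184560 * (u - (-1 / 5)) ^ 0 * (0 - u) ^ 6
      + 443260 * (u - (-1 / 5)) ^ 1 * (0 - u) ^ 5
      + 318500 * (u - (-1 / 5)) ^ 2 * (0 - u) ^ 4
      + 61000 * (u - (-1 / 5)) ^ 3 * (0 - u) ^ 3
      + 53750 * (u - (-1 / 5)) ^ 4 * (0 - u) ^ 2
      + 100000 * (u - (-1 / 5)) ^ 5 * (0 - u) ^ 1
      + 31250 * (u - (-1 / 5)) ^ 6 * (0 - u) ^ 0 := by ring
  refine (mul_nonneg_iff_of_pos_left (by norm_num : (0:ℝ) < 3)).1 ?_
  rw [e]; positivity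

theorem cert_d3 {u : ℝ} (h1 : (-1 / 5) ≤ u) (h2 : u ≤ 0) :
    0 ≤ (503 / 9) + 290 * u - 3193 * u ^ 2 - (596900 / 9) * u ^ 3 - 360852 * u ^ 4 - 1005280 * u ^ 5 - (12275092 / 9) * u ^ 6
       - 2813984 * u ^ 7 - 5029344 * u ^ 8 - 3991680 * u ^ 9 - 1166400 * u ^ 10 := by
  have hx : 0 ≤ u - (-1 / 5) := by linarith
  have hy : 0 ≤ 0 - u := by linarith
  have e : 9 * ((503 / 9) + 290 * u - 3193 * u ^ 2 - (596900 / 9) * u ^ 3 - 360852 * u ^ 4 - 1005280 * u ^ 5 - (12275092 / 9) * u ^ 6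
       - 2813984 * u ^ 7 - 5029344 * u ^ 8 - 3991680 * u ^ 9 - 1166400 * u ^ 10) =
      7281887600 * (u - (-1 / 5)) ^ 0 * (0 - u) ^ 10
      + 53493261800 * (u - (-1 / 5)) ^ 1 * (0 - u) ^ 9
      + 186404232975 * (u - (-1 / 5)) ^ 2 * (0 - u) ^ 8
      + 405093314500 * (u - (-1 / 5)) ^ 3 * (0 - u) ^ 7
      + 608132755000 * (u - (-1 / 5)) ^ 4 * (0 - u) ^ 6
      + 670018687500 * (u - (-1 / 5)) ^ 5 * (0 - u) ^ 5
      + 564713781250 * (u - (-1 / 5)) ^ 6 * (0 - u) ^ 4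
      + 362767187500 * (u - (-1 / 5)) ^ 7 * (0 - u) ^ 3
      + 163940625000 * (u - (-1 / 5)) ^ 8 * (0 - u) ^ 2
      + 44023437500 * (u - (-1 / 5)) ^ 9 * (0 - u) ^ 1
      + 4912109375 * (u - (-1 / 5)) ^ 10 * (0 - u) ^ 0 := by ring
  refine (mul_nonneg_iff_of_pos_left (by norm_num : (0:ℝ) < 9)).1 ?_
  rw [e]; positivity

theorem cert_p4_nonneg {u : ℝ} (h1 : 0 ≤ u) (h2 : u ≤ (1 / 3)) :
    0 ≤ (10 / 3) + (40 / 3) * u + 140 * u ^ 2 + (1120 / 3) * u ^ 3 + (4330 / 3) * u ^ 4 + 2280 * u ^ 5 + 1080 * u ^ 6 := by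
  have hx : 0 ≤ u - 0 := by linarith
  have hy : 0 ≤ (1 / 3) - u := by linarith
  have e : 1 * ((10 / 3) + (40 / 3) * u + 140 * u ^ 2 + (1120 / 3) * u ^ 3 + (4330 / 3) * u ^ 4 + 2280 * u ^ 5 + 1080 * u ^ 6) =
      2430 * (u - 0) ^ 0 * ((1 / 3) - u) ^ 6
      + 17820 * (u - 0) ^ 1 * ((1 / 3) - u) ^ 5
      + 63990 * (u - 0) ^ 2 * ((1 / 3) - u) ^ 4
      + 136440 * (u - 0) ^ 3 * ((1 / 3) - u) ^ 3
      + 180120 * (u - 0) ^ 4 * ((1 / 3) - u) ^ 2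
      + 139200 * (u - 0) ^ 5 * ((1 / 3) - u) ^ 1
      + 48000 * (u - 0) ^ 6 * ((1 / 3) - u) ^ 0 := by ring
  refine (mul_nonneg_iff_of_pos_left (by norm_num : (0:ℝ) < 1)).1 ?_
  rw [e]; positivity

theorem cert_a4_nonneg {u : ℝ} (h1 : 0 ≤ u) (h2 : u ≤ (1 / 3)) :
    0 ≤ (2 / 3) + (50 / 3) * u + (154 / 3) * u ^ 2 + (2036 / 5) * u ^ 3 + (5362 / 15) * u ^ 4 + (45986 / 15) * u ^ 5 - (31054 / 15) * u ^ 6
       - 960 * u ^ 7 + 1080 * u ^ 8 := by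
  have hx : 0 ≤ u - 0 := by linarith
  have hy : 0 ≤ (1 / 3) - u := by linarith
  have e : 5 * ((2 / 3) + (50 / 3) * u + (154 / 3) * u ^ 2 + (2036 / 5) * u ^ 3 + (5362 / 15) * u ^ 4 + (45986 / 15) * u ^ 5 - (31054 / 15) * u ^ 6
       - 960 * u ^ 7 + 1080 * u ^ 8) =
      21870 * (u - 0) ^ 0 * ((1 / 3) - u) ^ 8
      + 357210 * (u - 0) ^ 1 * ((1 / 3) - u) ^ 7
      + 2075220 * (u - 0) ^ 2 * ((1 / 3) - u) ^ 6
      + 6669378 * (u - 0) ^ 3 * ((1 / 3) - u) ^ 5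
      + 13334814 * (u - 0) ^ 4 * ((1 / 3) - u) ^ 4
      + 17286120 * (u - 0) ^ 5 * ((1 / 3) - u) ^ 3
      + 14210844 * (u - 0) ^ 6 * ((1 / 3) - u) ^ 2
      + 6667104 * (u - 0) ^ 7 * ((1 / 3) - u) ^ 1
      + 1342464 * (u - 0) ^ 8 * ((1 / 3) - u) ^ 0 := by ring
  refine (mul_nonneg_iff_of_pos_left (by norm_num : (0:ℝ) < 5)).1 ?_
  rw [e]; positivity

theorem cert_d4 {u : ℝ} (h1 : 0 ≤ u) (h2 : u ≤ (1 / 3)) :
    0 ≤ (51 / 5) + (1872 / 5) * u + (35001 / 25) * u ^ 2 + (161152 / 15) * u ^ 3 + (9712607 / 900) * u ^ 4 + (1628696 / 45) * u ^ 5 - (24033796 / 225) * u ^ 6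
       - (26639644 / 45) * u ^ 7 - (144085321 / 90) * u ^ 8 - (81369442 / 45) * u ^ 9 - (14178019 / 9) * u ^ 10 - (17042828 / 9) * u ^ 11 - (56507209 / 36) * u ^ 12
       - 811670 * u ^ 13 - 519750 * u ^ 14 - 307800 * u ^ 15 - 72900 * u ^ 16 := by
  have hx : 0 ≤ u - 0 := by linarith
  have hy : 0 ≤ (1 / 3) - u := by linarith
  have e : 100 * ((51 / 5) + (1872 / 5) * u + (35001 / 25) * u ^ 2 + (161152 / 15) * u ^ 3 + (9712607 / 900) * u ^ 4 + (1628696 / 45) * u ^ 5 - (24033796 / 225) * u ^ 6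
       - (26639644 / 45) * u ^ 7 - (144085321 / 90) * u ^ 8 - (81369442 / 45) * u ^ 9 - (14178019 / 9) * u ^ 10 - (17042828 / 9) * u ^ 11 - (56507209 / 36) * u ^ 12
       - 811670 * u ^ 13 - 519750 * u ^ 14 - 307800 * u ^ 15 - 72900 * u ^ 16) =
      43907655420 * (u - 0) ^ 0 * ((1 / 3) - u) ^ 16
      + 1239745564800 * (u - 0) ^ 1 * ((1 / 3) - u) ^ 15
      + 13996899613476 * (u - 0) ^ 2 * ((1 / 3) - u) ^ 14
      + 92084452920504 * (u - 0) ^ 3 * ((1 / 3) - u) ^ 13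
      + 408125841990579 * (u - 0) ^ 4 * ((1 / 3) - u) ^ 12
      + 1309971330782820 * (u - 0) ^ 5 * ((1 / 3) - u) ^ 11
      + 3169348772956290 * (u - 0) ^ 6 * ((1 / 3) - u) ^ 10
      + 5910370770606012 * (u - 0) ^ 7 * ((1 / 3) - u) ^ 9
      + 8587242117912483 * (u - 0) ^ 8 * ((1 / 3) - u) ^ 8
      + 9736153329339648 * (u - 0) ^ 9 * ((1 / 3) - u) ^ 7
      + 8554104113863140 * (u - 0) ^ 10 * ((1 / 3) - u) ^ 6
      + 5726937903283440 * (u - 0) ^ 11 * ((1 / 3) - u) ^ 5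
      + 2835083604051036 * (u - 0) ^ 12 * ((1 / 3) - u) ^ 4
      + 985573207039104 * (u - 0) ^ 13 * ((1 / 3) - u) ^ 3
      + 219019877593344 * (u - 0) ^ 14 * ((1 / 3) - u) ^ 2
      + 25394567639040 * (u - 0) ^ 15 * ((1 / 3) - u) ^ 1
      + 760164249600 * (u - 0) ^ 16 * ((1 / 3) - u) ^ 0 := by ring
  refine (mul_nonneg_iff_of_pos_left (by norm_num : (0:ℝ) < 100)).1 ?_
  rw [e]; positivity

end Vale.Agent.P046
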