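import Vale.Agent.P046.Hyper

/-!
One step drift of the potential at the critical rate.
-/

namespace Vale.Agent.P046

open Finset

noncomputable section

variable {α : Type*} [DecidableEq α]

/-- Normalised deviation of the degree from the reference `D`. -/
def dev (E : Finset (Finset α)) (D : ℝ) (e : α) : ℝ := (deg E e : ℝ) / D - 1

/-- The potential. -/
def pot (V : Finset α) (E : Finset (Finset α)) (D : ℝ) : ℝ := D * ∑ e ∈ V, prof (dev E D e)

/-- The reference after one step. -/
def nextD (E : Finset (Finset α)) (D : ℝ) : ℝ := D / (1 + 2 * D / E.card)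

/-- Sum of squared degrees. -/
def degSq (V : Finset α) (E : Finset (Finset α)) : ℝ := ∑ e ∈ V, (deg E e : ℝ) ^ 2

lemma degSq_nonneg (V : Finset α) (E : Finset (Finset α)) : 0 ≤ degSq V E :=
  sum_nonneg fun _ _ => sq_nonneg _

lemma pot_nonneg (V : Finset α) (E : Finset (Finset α)) {D : ℝ} (hD : 0 ≤ D) : 0 ≤ pot V E D :=
  mul_nonneg hD (sum_nonneg fun _ _ => prof_nonneg _)

lemma one_add_dev (E : Finset (Finset α)) (D : ℝ) (e : α) :
    1 + dev E D e = (deg E e : ℝ) / D := by unfold dev; ring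

lemma neg_one_le_dev (E : Finset (Finset α)) {D : ℝ} (hD : 0 < D) (e : α) : -1 ≤ dev E D e := by
  have := one_add_dev E D e
  have : 0 ≤ (deg E e : ℝ) / D := by positivity
  linarith

lemma Lin.sq_card_le_degSq {V : Finset α} {E : Finset (Finset α)} (h : Lin V E) :
    9 * (E.card : ℝ) ^ 2 ≤ V.card * degSq V E := by
  have := sq_sum_le_card_mul_sum_sq (s := V) (f := fun e => (deg E e : ℝ))
  have e : ∑ e ∈ V, (deg E e : ℝ) = 3 * E.card := by exact_mod_cast h.sum_deg
  rw [e] at this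
  unfold degSq
  nlinarith

/-- The pointwise bound after one step. -/
lemma point_bound {E : Finset (Finset α)} {T : Finset α} {D a : ℝ} (hD : 0 < D) (ha : 0 ≤ a)
    (ha1 : a ≤ 1) (e : α) (hc : loss E T e ≤ 3) :
    D / (1 + a) * prof (dev (nextE E T) (D / (1 + a)) e) ≤
      (D * prof (dev E D e)
        + D * a * (profDeriv (dev E D e) * (1 + dev E D e) - prof (dev E D e)))
      - profDeriv (dev E D e) * loss E T e
      + (D * a ^ 2 * (26 * (1 + dev E D e) + 1) + 8000 * (D * a ^ 2 * (1 + dev E D e) ^ 2)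
        + 48000 / D * loss E T e) := by
  set u := dev E D e with hu
  set c : ℝ := (loss E T e : ℝ) with hc'
  have hu1 : -1 ≤ u := neg_one_le_dev E hD e
  have hdeg : (deg (nextE E T) e : ℝ) = D * (1 + u) - c := by
    have : ((deg (nextE E T) e : ℕ) : ℝ) + c = deg E e := by
      rw [hc']; exact_mod_cast deg_next E T e
    rw [hu, one_add_dev, mul_div_cancel₀ _ hD.ne']; linarith
  have h1a : (0:ℝ) < 1 + a := by linarith
  have ev : dev (nextE E T) (D / (1 + a)) e = u + (a * (1 + u) - c * (1 + a) / D) := by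
    unfold dev
    rw [hdeg]; field_simp
    ring
  rw [ev]
  set h := a * (1 + u) - c * (1 + a) / D with hh
  have t := prof_taylor u (u + h)
  rw [show u + h - u = h by ring] at t
  have t2 : D / (1 + a) * prof (u + h)
      ≤ D / (1 + a) * (prof u + profDeriv u * h + 4000 * h ^ 2) :=
    mul_le_mul_of_nonneg_left t (by positivity)
  have e1 : D / (1 + a) * (prof u + profDeriv u * h)
      = D * prof u + D * a * (profDeriv u * (1 + u) - prof u)
        - D * a ^ 2 / (1 + a) * (profDeriv u * (1 + u) - prof u) - profDeriv u * c := by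
    rw [hh]; field_simp
    ring
  have hb : |profDeriv u * (1 + u) - prof u| ≤ 26 * (1 + u) + 1 := by
    have g := abs_le.1 (abs_profDeriv_le u)
    have := prof_nonneg u
    have := prof_le_lin u hu1
    rw [abs_le]; constructor <;> nlinarith
  have e2 : -(D * a ^ 2 / (1 + a) * (profDeriv u * (1 + u) - prof u))
      ≤ D * a ^ 2 * (26 * (1 + u) + 1) := by
    have h1 : D * a ^ 2 / (1 + a) ≤ D * a ^ 2 := div_le_self (by positivity) (by linarith)
    have h2 : 0 ≤ D * a ^ 2 / (1 + a) := by positivity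
    calc -(D * a ^ 2 / (1 + a) * (profDeriv u * (1 + u) - prof u))
        ≤ D * a ^ 2 / (1 + a) * (26 * (1 + u) + 1) := by
          rw [neg_le_iff_add_nonneg, ← mul_add]
          exact mul_nonneg h2 (by linarith [(abs_le.1 hb).1])
      _ ≤ _ := mul_le_mul_of_nonneg_right h1 (by linarith)
  have e3 : D / (1 + a) * (4000 * h ^ 2)
      ≤ 8000 * (D * a ^ 2 * (1 + u) ^ 2) + 48000 / D * c := by
    have hh2 : h ^ 2 ≤ 2 * (a * (1 + u)) ^ 2 + 2 * (c * (1 + a) / D) ^ 2 := by
      rw [hh]; nlinarith [sq_nonneg (a * (1 + u) + c * (1 + a) / D)]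
    have hc0 : 0 ≤ c := Nat.cast_nonneg _
    have hc3 : c ≤ 3 := by rw [hc']; exact_mod_cast hc
    calc D / (1 + a) * (4000 * h ^ 2)
        ≤ D / (1 + a) * (4000 * (2 * (a * (1 + u)) ^ 2 + 2 * (c * (1 + a) / D) ^ 2)) := by gcongr
      _ = 8000 * (D / (1 + a) * a ^ 2 * (1 + u) ^ 2) + 8000 / D * ((1 + a) * (c * c)) := by
          field_simp; ring
      _ ≤ 8000 * (D * a ^ 2 * (1 + u) ^ 2) + 8000 / D * (2 * (3 * c)) := by
          gcongr
          · exact div_le_self hD.le (by linarith)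
          · linarith
      _ = _ := by ring
  rw [mul_add] at t2
  linarith

variable {V : Finset α} {E : Finset (Finset α)}

/-- The dissipation identity summed over all hyperedges. -/
lemma Lin.main_term (h : Lin V E) {D : ℝ} (hD : 0 < D) :
    2 * D ^ 2 * ∑ e ∈ V, (profDeriv (dev E D e) * (1 + dev E D e) - prof (dev E D e))
      + D * pot V E D - D * ∑ e ∈ V, (deg E e : ℝ) * prof (dev E D e)
      - ∑ R ∈ E, ∑ e ∈ R, profDeriv (dev E D e)
          * ((∑ f ∈ R, (deg E f : ℝ)) - deg E e - 2) ≤ 144 * E.card := by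
  classical
  set u := dev E D with hu
  set G : α → ℝ := fun e => 2 * profDeriv (u e) - prof (u e) / (1 + u e) - prof (u e) with hG
  have h1 : 2 * D ^ 2 * ∑ e ∈ V, (profDeriv (u e) * (1 + u e) - prof (u e))
      + D * pot V E D - D * ∑ e ∈ V, (deg E e : ℝ) * prof (u e)
      ≤ D * ∑ R ∈ E, ∑ e ∈ R, G e := by
    rw [h.sum_incidence, pot, mul_sum, mul_sum, mul_sum, mul_sum, mul_sum, ← sum_add_distrib,
      ← sum_sub_distrib]
    refine sum_le_sum fun e _ => ?_
    have hY : (deg E e : ℝ) = D * (1 + u e) := by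
      rw [hu, one_add_dev, mul_div_cancel₀ _ hD.ne']
    have hy0 : 0 ≤ 1 + u e := by linarith [neg_one_le_dev E hD e]
    have := prof_nonneg (u e)
    rw [hY, hG]
    rcases hy0.eq_or_lt with h0 | h0
    · simp only [← h0, mul_zero, zero_mul]
      nlinarith [mul_nonneg (mul_nonneg hD.le hD.le) this]
    · apply le_of_eq
      field_simp
      rw [hu]
      ring
  have h2 : D * ∑ R ∈ E, ∑ e ∈ R, G e
      - ∑ R ∈ E, ∑ e ∈ R, profDeriv (u e) * ((∑ f ∈ R, (deg E f : ℝ)) - deg E e - 2)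
      ≤ 144 * E.card := by
    rw [mul_sum, ← sum_sub_distrib, mul_comm (144:ℝ), ← nsmul_eq_mul, ← sum_const]
    refine sum_le_sum fun R hR => ?_
    obtain ⟨x, y, z, hxy, hxz, hyz, rfl⟩ := card_eq_three.1 (h.three R hR)
    have hY : ∀ e, (deg E e : ℝ) = D * (1 + u e) := fun e => by
      rw [hu, one_add_dev, mul_div_cancel₀ _ hD.ne']
    have hpos : ∀ e ∈ ({x, y, z} : Finset α), -1 < u e := by
      intro e he
      have h1 : (1:ℝ) ≤ deg E e := by exact_mod_cast h.deg_pos hR he
      rw [hY e] at h1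
      by_contra hc
      nlinarith [mul_nonneg hD.le (by linarith : 0 ≤ -(1 + u e))]
    have ha := hpos x (by simp)
    have hb := hpos y (by simp)
    have hc := hpos z (by simp)
    have key := key_ineq ha hb hc
    have hs : ∀ w : α → ℝ, ∑ e ∈ ({x, y, z} : Finset α), w e = w x + w y + w z := by
      intro w
      rw [sum_insert (by simp [hxy, hxz]), sum_insert (by simp [hyz]), sum_singleton, add_assoc]
    rw [hs, hs, hs, hY x, hY y, hY z, hG]
    have gx := abs_le.1 (abs_profDeriv_le (u x))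
    have gy := abs_le.1 (abs_profDeriv_le (u y))
    have gz := abs_le.1 (abs_profDeriv_le (u z))
    have dx : ∀ t : ℝ, -1 < t → diss t = prof t / (1 + t) + prof t - t * profDeriv t := by
      intro t ht
      have : 1 + t ≠ 0 := by linarith
      unfold diss; field_simp; ring
    rw [dx _ ha, dx _ hb, dx _ hc] at key
    have := mul_nonneg hD.le key
    nlinarith
  linarith

/-- One step drift of the potential. -/
theorem Lin.drift (h : Lin V E) {D : ℝ} (hD : 1 ≤ D) (hDm : D ≤ V.card)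
    (hm : 8 ≤ (V.card : ℝ)) (hlo : (V.card : ℝ) * D / 4 ≤ E.card) :
    ∑ T ∈ E, pot (V \ T) (nextE E T) (nextD E D)
      ≤ ((E.card : ℝ) - D) * pot V E D + 2000000 * (degSq V E / D) := by
  classical
  set Q : ℝ := (E.card : ℝ) with hQ
  set m : ℝ := (V.card : ℝ) with hmdef
  set a := 2 * D / Q with hadef
  have hD0 : 0 < D := by linarith
  have hQ0 : 0 < Q := by
    have : 0 < m * D := by positivity
    linarith
  have ha : 0 ≤ a := by positivity
  have haQ : a * Q = 2 * D := by rw [hadef]; field_simp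
  have ham : a * m ≤ 8 := by
    rw [hadef, div_mul_eq_mul_div, div_le_iff₀ hQ0]; nlinarith
  have ha1 : a ≤ 1 := by nlinarith
  have hsq : 3 * Q ^ 2 * 3 ≤ m * degSq V E := by linarith [h.sq_card_le_degSq]
  have hS0 := degSq_nonneg V E
  have hQS : Q * D ≤ degSq V E := by
    have h1 : m * D * Q ≤ 4 * (Q * Q) := by nlinarith
    nlinarith
  set u := dev E D with hu
  set F : α → ℝ := fun e => D * prof (u e)
    + D * a * (profDeriv (u e) * (1 + u e) - prof (u e)) with hF
  set Er : α → ℝ := fun e => D * a ^ 2 * (26 * (1 + u e) + 1)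
    + 8000 * (D * a ^ 2 * (1 + u e) ^ 2) with hEr
  have hEr0 : ∀ e, 0 ≤ Er e := fun e => by
    have : 0 ≤ 1 + u e := by linarith [neg_one_le_dev E hD0 e]
    rw [hEr]; positivity
  -- one choice
  have step : ∀ T ∈ E, pot (V \ T) (nextE E T) (nextD E D) ≤
      (∑ e ∈ V, F e) - (∑ e ∈ T, F e) - (∑ e ∈ V \ T, profDeriv (u e) * loss E T e)
        + (∑ e ∈ V, Er e) + 48000 / D * ∑ e ∈ V \ T, (loss E T e : ℝ) := by
    intro T hT
    have hpw : D / (1 + a) * ∑ e ∈ V \ T, prof (dev (nextE E T) (D / (1 + a)) e)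
        ≤ (∑ e ∈ V \ T, F e) - (∑ e ∈ V \ T, profDeriv (u e) * loss E T e)
          + ((∑ e ∈ V \ T, Er e) + 48000 / D * ∑ e ∈ V \ T, (loss E T e : ℝ)) := by
      rw [mul_sum, mul_sum, ← sum_sub_distrib, ← sum_add_distrib, ← sum_add_distrib]
      exact sum_le_sum fun e he =>
        point_bound (E := E) (T := T) hD0 ha ha1 e (h.loss_le_three hT (mem_sdiff.1 he).2)
    have hsF : (∑ e ∈ V \ T, F e) = (∑ e ∈ V, F e) - ∑ e ∈ T, F e := by
      rw [← sum_sdiff (h.sub T hT)]; ring
    have hsE : (∑ e ∈ V \ T, Er e) ≤ ∑ e ∈ V, Er e :=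
      sum_le_sum_of_subset_of_nonneg sdiff_subset fun e _ _ => hEr0 e
    have : pot (V \ T) (nextE E T) (nextD E D)
        = D / (1 + a) * ∑ e ∈ V \ T, prof (dev (nextE E T) (D / (1 + a)) e) := rfl
    rw [this]
    linarith
  have tot := sum_le_sum step
  rw [sum_add_distrib, sum_add_distrib, sum_sub_distrib, sum_sub_distrib, sum_const, sum_const,
    nsmul_eq_mul, nsmul_eq_mul, ← hQ, h.sum_incidence, h.sum_loss, ← mul_sum] at tot
  -- expansion of the sums
  have eF : ∑ e ∈ V, F e = pot V E D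
      + D * a * ∑ e ∈ V, (profDeriv (u e) * (1 + u e) - prof (u e)) := by
    rw [hF, sum_add_distrib, ← mul_sum, ← mul_sum]; rfl
  have eY : ∀ e, (deg E e : ℝ) = D * (1 + u e) := fun e => by
    rw [hu, one_add_dev, mul_div_cancel₀ _ hD0.ne']
  have eT : D * ∑ e ∈ V, (deg E e : ℝ) * prof (u e) - a * (26 * degSq V E) - D * a * (3 * Q)
      ≤ ∑ e ∈ V, (deg E e : ℝ) * F e := by
    have hsd : ∑ e ∈ V, (deg E e : ℝ) = 3 * Q := by rw [hQ]; exact_mod_cast h.sum_deg
    rw [← hsd, degSq, mul_sum, mul_sum, mul_sum, mul_sum, ← sum_sub_distrib, ← sum_sub_distrib]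
    refine sum_le_sum fun e _ => ?_
    have hu1 := neg_one_le_dev E hD0 e
    rw [← hu] at hu1
    have hb : -(26 * (1 + u e) + 1) ≤ profDeriv (u e) * (1 + u e) - prof (u e) := by
      have g := abs_le.1 (abs_profDeriv_le (u e))
      have := prof_le_lin (u e) hu1
      nlinarith
    have := mul_le_mul_of_nonneg_left hb
      (mul_nonneg (mul_nonneg hD0.le ha) (Nat.cast_nonneg (deg E e)))
    rw [hF]
    have eY' := eY e
    linear_combination this - (26 * a * (deg E e : ℝ)) * eY'
  have eE : Q * ∑ e ∈ V, Er e ≤ 300000 * (degSq V E / D) := by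
    have e1 : ∑ e ∈ V, Er e
        = a ^ 2 * (26 * (3 * Q)) + D * a ^ 2 * m + 8000 * (a ^ 2 * degSq V E / D) := by
      have hsd : ∑ e ∈ V, (deg E e : ℝ) = 3 * Q := by rw [hQ]; exact_mod_cast h.sum_deg
      have hm' : m = ∑ e ∈ V, (1:ℝ) := by simp [hmdef]
      rw [← hsd, hm', degSq, mul_sum, mul_sum, mul_sum, mul_sum, sum_div, mul_sum,
        ← sum_add_distrib, ← sum_add_distrib]
      refine sum_congr rfl fun e _ => ?_
      rw [hEr, eY e]; field_simp
    rw [e1, ← mul_div_assoc, mul_add, mul_add]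
    have q1 : a ^ 2 * Q * Q = 4 * D ^ 2 := by rw [hadef]; field_simp; ring
    have q2 : D * a ^ 2 * m * Q ≤ 16 * D ^ 2 := by
      calc D * a ^ 2 * m * Q = (a * m) * (D * (a * Q)) := by ring
        _ ≤ 8 * (D * (a * Q)) := mul_le_mul_of_nonneg_right ham (by positivity)
        _ = _ := by rw [haQ]; ring
    have q3 : a ^ 2 * Q ≤ 16 := by
      calc a ^ 2 * Q = a * (a * Q) := by ring
        _ = 2 * (a * D) := by rw [haQ]; ring
        _ ≤ 2 * (a * m) := by gcongr
        _ ≤ _ := by linarith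
    have q4 : D ^ 2 ≤ 4 * Q := by nlinarith
    have q5 : Q ≤ degSq V E / D := by rw [le_div_iff₀ hD0]; exact hQS
    have q6 : a ^ 2 * Q * (degSq V E / D) ≤ 16 * (degSq V E / D) :=
      mul_le_mul_of_nonneg_right q3 (by positivity)
    calc Q * (a ^ 2 * (26 * (3 * Q))) + Q * (D * a ^ 2 * m)
          + Q * (8000 * (a ^ 2 * degSq V E) / D)
        = 78 * (a ^ 2 * Q * Q) + D * a ^ 2 * m * Q + 8000 * (a ^ 2 * Q * (degSq V E / D)) := by
          ring
      _ ≤ _ := by linarith
  have eL : 48000 / D * ∑ T ∈ E, ∑ e ∈ V \ T, (loss E T e : ℝ) ≤ 96000 * (degSq V E / D) := by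
    have := mul_le_mul_of_nonneg_left h.sum_loss_le (by positivity : (0:ℝ) ≤ 48000 / D)
    refine this.trans (le_of_eq ?_)
    unfold degSq; ring
  have main := h.main_term hD0
  rw [← hu, ← hQ] at main
  have q5 : Q ≤ degSq V E / D := by rw [le_div_iff₀ hD0]; exact hQS
  have q7 : a * degSq V E ≤ 8 * (degSq V E / D) := by
    rw [← mul_div_assoc, le_div_iff₀ hD0]
    have : a * D ≤ 8 := le_trans (mul_le_mul_of_nonneg_left hDm ha) ham
    nlinarith
  have q8 : D * a * (3 * Q) ≤ 24 * Q := by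
    have : a * D ≤ 8 := le_trans (mul_le_mul_of_nonneg_left hDm ha) ham
    nlinarith
  rw [eF] at tot
  have q9 : Q * (D * a * ∑ e ∈ V, (profDeriv (u e) * (1 + u e) - prof (u e)))
      = 2 * D ^ 2 * ∑ e ∈ V, (profDeriv (u e) * (1 + u e) - prof (u e)) := by
    linear_combination (D * ∑ e ∈ V, (profDeriv (u e) * (1 + u e) - prof (u e))) * haQ
  linarith

end

end Vale.Agent.P046
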