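import Vale.Agent.P046.Ineq

/-!
Elementary bounds for the profile: second order bound, growth, and control of the deviation.
-/

namespace Vale.Agent.P046

noncomputable section

/-- The smooth core component. -/
def core (u : ℝ) : ℝ := u ^ 2 / den u

/-- Its derivative. -/
def coreDeriv (u : ℝ) : ℝ := u * (2 + u) / den u ^ 2

lemma den_ge (u : ℝ) : (1 + u ^ 2) / 2 ≤ den u := by
  unfold den; nlinarith [sq_nonneg (6 * u + 1 / 12)]

lemma core_nonneg (u : ℝ) : 0 ≤ core u := by
  have := den_pos u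
  unfold core; positivity

lemma core_le_one (u : ℝ) : core u ≤ 1 := by
  unfold core
  rw [div_le_one (den_pos u)]
  unfold den; nlinarith [sq_nonneg (4 * u + 1 / 8)]

lemma core_le_two_sq (u : ℝ) : core u ≤ 2 * u ^ 2 := by
  unfold core
  rw [div_le_iff₀ (den_pos u)]
  nlinarith [den_ge u, sq_nonneg u]

lemma abs_coreDeriv_mul (u : ℝ) : |coreDeriv u| * (1 + |u|) ≤ 24 := by
  have h := den_ge u
  have hd := den_pos u
  unfold coreDeriv
  rw [abs_div, abs_of_pos (pow_pos hd 2), abs_mul, div_mul_eq_mul_div, div_le_iff₀ (pow_pos hd 2)]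
  have h2 : |2 + u| ≤ 2 + |u| := by
    calc |2 + u| ≤ |(2:ℝ)| + |u| := abs_add_le _ _
      _ = _ := by norm_num
  have hu := abs_nonneg u
  have e : u ^ 2 = |u| ^ 2 := (sq_abs u).symm
  rw [e] at h
  generalize |u| = t at *
  have h3 : t * |2 + u| * (1 + t) ≤ t * (2 + t) * (1 + t) := by gcongr
  have h4 : (1 + t ^ 2) ^ 2 / 4 ≤ den u ^ 2 := by
    have : ((1 + t ^ 2) / 2) ^ 2 ≤ den u ^ 2 := pow_le_pow_left₀ (by positivity) h 2
    linear_combination this
  nlinarith [sq_nonneg (t - 1), sq_nonneg t, mul_nonneg hu (sq_nonneg (t - 1))]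

lemma abs_coreDeriv_le (u : ℝ) : |coreDeriv u| ≤ 24 := by
  nlinarith [abs_coreDeriv_mul u, abs_nonneg (coreDeriv u), abs_nonneg u]

lemma abs_coreDeriv_le_mul (u : ℝ) : |coreDeriv u| ≤ 48 * |u| := by
  have h := den_ge u
  have hd := den_pos u
  unfold coreDeriv
  rw [abs_div, abs_of_pos (pow_pos hd 2), abs_mul, div_le_iff₀ (pow_pos hd 2)]
  have h2 : |2 + u| ≤ 2 + |u| := by
    calc |2 + u| ≤ |(2:ℝ)| + |u| := abs_add_le _ _
      _ = _ := by norm_num
  have : |2 + u| ≤ 48 * den u ^ 2 := by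
    have h4 : ((1 + u ^ 2) / 2) ^ 2 ≤ den u ^ 2 := pow_le_pow_left₀ (by positivity) h 2
    nlinarith [sq_abs u, sq_nonneg (|u| - 1)]
  nlinarith [mul_le_mul_of_nonneg_left this (abs_nonneg u)]

lemma core_taylor (u v : ℝ) :
    core v ≤ core u + coreDeriv u * (v - u) + 4000 * (v - u) ^ 2 := by
  have hu := den_pos u
  have hv := den_pos v
  have e : core v - core u - coreDeriv u * (v - u)
      = (v - u) ^ 2 * (1 - 18 * core u - coreDeriv u * (1 + 36 * u) - 18 * coreDeriv u * (v - u))
          / den v := by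
    rw [eq_div_iff hv.ne']
    unfold core coreDeriv
    field_simp
    unfold den
    ring
  suffices h : (1 - 18 * core u - coreDeriv u * (1 + 36 * u) - 18 * coreDeriv u * (v - u)) / den v
      ≤ 4000 by
    have := mul_le_mul_of_nonneg_left h (sq_nonneg (v - u))
    rw [← mul_div_assoc, ← e] at this
    linarith
  rw [div_le_iff₀ hv]
  have a := abs_coreDeriv_mul u
  have a' := abs_coreDeriv_le u
  have b := core_nonneg u
  have h1 : |coreDeriv u * u| ≤ 24 := by
    rw [abs_mul]; nlinarith [abs_nonneg (coreDeriv u)]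
  have h2 : |coreDeriv u * v| ≤ 24 * |v| := by
    rw [abs_mul]; exact mul_le_mul_of_nonneg_right a' (abs_nonneg v)
  have d := den_ge v
  have : |v| ≤ den v := by nlinarith [sq_abs v, sq_nonneg (|v| - 1)]
  have : 1 / 2 ≤ den v := by nlinarith [sq_nonneg v]
  nlinarith [(abs_le.1 h1).1, (abs_le.1 h1).2, (abs_le.1 h2).1, (abs_le.1 h2).2, (abs_le.1 a').1,
    (abs_le.1 a').2]

lemma prof_of_nonpos {u : ℝ} (h : u ≤ 0) : prof u = core u / 2 := by
  simp only [prof, if_pos h, core]; ring

lemma prof_of_pos {u : ℝ} (h : 0 < u) : prof u = 2 / 5 * u ^ 2 / (1 + u) + core u / 10 := by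
  simp only [prof, if_neg (not_le.2 h), core]; ring

lemma profDeriv_of_nonpos {u : ℝ} (h : u ≤ 0) : profDeriv u = coreDeriv u / 2 := by
  simp only [profDeriv, if_pos h, coreDeriv]; ring

lemma profDeriv_of_pos {u : ℝ} (h : 0 < u) :
    profDeriv u = 2 / 5 * (u * (2 + u)) / (1 + u) ^ 2 + coreDeriv u / 10 := by
  simp only [profDeriv, if_neg (not_le.2 h), coreDeriv]; ring

lemma prof_nonneg (u : ℝ) : 0 ≤ prof u := by
  have := core_nonneg u
  rcases le_or_gt u 0 with h | h
  · rw [prof_of_nonpos h]; linarith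
  · rw [prof_of_pos h]; positivity

lemma prof_zero : prof 0 = 0 := by simp [prof]

lemma prof_le_lin (u : ℝ) (hu : -1 ≤ u) : prof u ≤ 2 * (1 + u) + 1 := by
  have := core_le_one u
  rcases le_or_gt u 0 with h | h
  · rw [prof_of_nonpos h]; linarith
  · rw [prof_of_pos h]
    have : 2 / 5 * u ^ 2 / (1 + u) ≤ u := by
      rw [div_le_iff₀ (by linarith)]; nlinarith
    linarith

lemma abs_profDeriv_le (u : ℝ) : |profDeriv u| ≤ 24 := by
  have a := abs_le.1 (abs_coreDeriv_le u)
  rcases le_or_gt u 0 with h | h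
  · rw [profDeriv_of_nonpos h, abs_le]; constructor <;> linarith
  · rw [profDeriv_of_pos h, abs_le]
    have h1 : 2 / 5 * (u * (2 + u)) / (1 + u) ^ 2 ≤ 2 / 5 := by
      rw [div_le_iff₀ (by positivity)]; nlinarith
    have h2 : 0 ≤ 2 / 5 * (u * (2 + u)) / (1 + u) ^ 2 := by positivity
    constructor <;> linarith

lemma abs_profDeriv_le_mul (u : ℝ) : |profDeriv u| ≤ 49 * |u| := by
  have a := abs_le.1 (abs_coreDeriv_le_mul u)
  have := abs_nonneg u
  rcases le_or_gt u 0 with h | h
  · rw [profDeriv_of_nonpos h, abs_le]; constructor <;> linarith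
  · rw [profDeriv_of_pos h, abs_le, abs_of_pos h] at *
    have h1 : 2 / 5 * (u * (2 + u)) / (1 + u) ^ 2 ≤ u := by
      rw [div_le_iff₀ (by positivity)]; nlinarith [mul_pos h h, mul_pos (mul_pos h h) h]
    have h2 : 0 ≤ 2 / 5 * (u * (2 + u)) / (1 + u) ^ 2 := by positivity
    constructor <;> linarith

lemma prof_le_sq (u : ℝ) : prof u ≤ 2 * u ^ 2 := by
  have := core_le_two_sq u
  have := core_nonneg u
  rcases le_or_gt u 0 with h | h
  · rw [prof_of_nonpos h]; linarith
  · rw [prof_of_pos h]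
    have : 2 / 5 * u ^ 2 / (1 + u) ≤ u ^ 2 := by
      rw [div_le_iff₀ (by linarith)]; nlinarith
    linarith

/-- Second order upper bound with a uniform constant. -/
lemma prof_taylor (u v : ℝ) :
    prof v ≤ prof u + profDeriv u * (v - u) + 4000 * (v - u) ^ 2 := by
  rcases le_or_gt u 0 with hu | hu <;> rcases le_or_gt v 0 with hv | hv
  · rw [prof_of_nonpos hu, prof_of_nonpos hv, profDeriv_of_nonpos hu]
    have := core_taylor u v
    nlinarith [sq_nonneg (v - u)]
  · -- crossing upwards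
    have g := abs_le.1 (abs_profDeriv_le_mul u)
    have := prof_le_sq v
    have := prof_nonneg u
    rw [abs_of_nonpos hu] at g
    nlinarith
  · -- crossing downwards
    have g := abs_le.1 (abs_profDeriv_le_mul u)
    have := prof_le_sq v
    have := prof_nonneg u
    rw [abs_of_pos hu] at g
    nlinarith
  · rw [prof_of_pos hu, prof_of_pos hv, profDeriv_of_pos hu]
    have := core_taylor u v
    have : 2 / 5 * v ^ 2 / (1 + v) ≤ 2 / 5 * u ^ 2 / (1 + u)
        + 2 / 5 * (u * (2 + u)) / (1 + u) ^ 2 * (v - u) + (v - u) ^ 2 := by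
      have e : 2 / 5 * v ^ 2 / (1 + v) = 2 / 5 * u ^ 2 / (1 + u)
          + 2 / 5 * (u * (2 + u)) / (1 + u) ^ 2 * (v - u)
          + 2 / 5 * (v - u) ^ 2 / ((1 + v) * (1 + u) ^ 2) := by
        have : (1:ℝ) + u ≠ 0 := by linarith
        have : (1:ℝ) + v ≠ 0 := by linarith
        field_simp
        ring
      rw [e]
      have h1 : 1 ≤ (1 + v) * (1 + u) ^ 2 := by nlinarith
      have : 2 / 5 * (v - u) ^ 2 / ((1 + v) * (1 + u) ^ 2) ≤ (v - u) ^ 2 := by
        rw [div_le_iff₀ (by positivity)]; nlinarith [sq_nonneg (v - u)]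
      linarith
    nlinarith [sq_nonneg (v - u)]

/-- The profile controls the absolute deviation. -/
lemma abs_le_prof {u θ : ℝ} (hu : -1 ≤ u) (hθ : 0 < θ) (hθ1 : θ ≤ 1) :
    |u| ≤ θ + 100 * prof u / θ := by
  have hp := prof_nonneg u
  rcases le_or_gt |u| θ with h | h
  · have : 0 ≤ 100 * prof u / θ := by positivity
    linarith
  · suffices |u| * θ ≤ 100 * prof u by
      have := (le_div_iff₀ hθ).2 this
      linarith
    rcases le_or_gt u 0 with h0 | h0
    · have hd := den_pos u
      rw [prof_of_nonpos h0]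
      have : u ^ 2 ≤ 18 * core u := by
        unfold core
        rw [mul_div_assoc', le_div_iff₀ hd]
        have : den u ≤ 18 := by
          unfold den; nlinarith
        nlinarith [sq_nonneg u]
      nlinarith [sq_abs u, mul_le_mul_of_nonneg_left h.le (abs_nonneg u)]
    · rw [prof_of_pos h0, abs_of_pos h0] at *
      have := core_nonneg u
      rcases le_or_gt u 1 with h1 | h1
      · have : u ^ 2 / 5 ≤ 2 / 5 * u ^ 2 / (1 + u) := by
          rw [le_div_iff₀ (by linarith)]; nlinarith [sq_nonneg u]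
        nlinarith [mul_le_mul_of_nonneg_left h.le h0.le]
      · have : u / 5 ≤ 2 / 5 * u ^ 2 / (1 + u) := by
          rw [le_div_iff₀ (by linarith)]; nlinarith
        nlinarith [mul_le_mul_of_nonneg_left hθ1 h0.le]

end

end Vale.Agent.P046
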