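import Vale.Agent.P046.Profile

/-!
Linear 3-uniform hypergraphs, the random greedy step, and double counting identities.
-/

namespace Vale.Agent.P046

open Finset

variable {α : Type*} [DecidableEq α]

/-- Degree of a point. -/
def deg (E : Finset (Finset α)) (e : α) : ℕ := (E.filter fun R => e ∈ R).card

/-- The hyperedges surviving the choice of `T`. -/
def nextE (E : Finset (Finset α)) (T : Finset α) : Finset (Finset α) :=
  E.filter fun R => Disjoint T R

/-- `E` is a linear 3-uniform hypergraph on the point set `V`. -/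
structure Lin (V : Finset α) (E : Finset (Finset α)) : Prop where
  sub : ∀ R ∈ E, R ⊆ V
  three : ∀ R ∈ E, R.card = 3
  inter : ∀ R ∈ E, ∀ T ∈ E, R ≠ T → (R ∩ T).card ≤ 1

/-- Number of hyperedges at `e` destroyed by the choice of `T`. -/
def loss (E : Finset (Finset α)) (T : Finset α) (e : α) : ℕ :=
  (E.filter fun R => e ∈ R ∧ ¬ Disjoint T R).card

lemma nextE_card_lt {E : Finset (Finset α)} {T : Finset α} (hT : T ∈ E) (hne : T.Nonempty) :
    (nextE E T).card < E.card := by
  apply card_lt_card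
  unfold nextE
  refine filter_ssubset.2 ⟨T, hT, fun h => ?_⟩
  obtain ⟨x, hx⟩ := hne
  exact disjoint_left.1 h hx hx

lemma deg_next (E : Finset (Finset α)) (T : Finset α) (e : α) :
    deg (nextE E T) e + loss E T e = deg E e := by
  unfold deg nextE loss
  rw [filter_filter, ← card_union_of_disjoint]
  · congr 1; ext R; simp only [mem_union, mem_filter]; tauto
  · rw [disjoint_left]; intro R h1 h2
    simp only [mem_filter] at h1 h2; tauto

namespace Lin

variable {V : Finset α} {E : Finset (Finset α)}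

lemma next (h : Lin V E) (T : Finset α) : Lin (V \ T) (nextE E T) where
  sub R hR := by
    obtain ⟨h1, h2⟩ := mem_filter.1 hR
    intro x hx
    exact mem_sdiff.2 ⟨h.sub R h1 hx, fun hxT => disjoint_left.1 h2 hxT hx⟩
  three R hR := h.three R (mem_filter.1 hR).1
  inter R hR S hS := h.inter R (mem_filter.1 hR).1 S (mem_filter.1 hS).1

lemma card_next (h : Lin V E) {T : Finset α} (hT : T ∈ E) :
    (V \ T).card + 3 = V.card := by
  have := h.three T hT
  have := card_sdiff_add_card_eq_card (h.sub T hT)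
  omega

lemma sum_deg (h : Lin V E) : ∑ e ∈ V, deg E e = 3 * E.card := by
  unfold deg
  simp only [card_filter]
  rw [sum_comm]
  calc ∑ R ∈ E, ∑ e ∈ V, (if e ∈ R then 1 else 0) = ∑ R ∈ E, 3 := by
        refine sum_congr rfl fun R hR => ?_
        rw [← card_filter, show V.filter (fun e => e ∈ R) = R from ?_, h.three R hR]
        ext x; simp only [mem_filter]; exact ⟨And.right, fun hx => ⟨h.sub R hR hx, hx⟩⟩
    _ = 3 * E.card := by simp [mul_comm]

lemma sum_incidence (h : Lin V E) (F : α → ℝ) :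
    ∑ R ∈ E, ∑ e ∈ R, F e = ∑ e ∈ V, (deg E e : ℝ) * F e := by
  unfold deg
  calc ∑ R ∈ E, ∑ e ∈ R, F e = ∑ R ∈ E, ∑ e ∈ V, (if e ∈ R then F e else 0) := by
        refine sum_congr rfl fun R hR => ?_
        rw [← sum_filter]; refine sum_congr ?_ fun _ _ => rfl
        ext x; simp only [mem_filter]; exact ⟨fun hx => ⟨h.sub R hR hx, hx⟩, And.right⟩
    _ = _ := by
        rw [sum_comm]; refine sum_congr rfl fun e _ => ?_
        rw [← sum_filter, sum_const, nsmul_eq_mul]

lemma deg_pos (h : Lin V E) {R : Finset α} (hR : R ∈ E) {e : α} (he : e ∈ R) :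
    1 ≤ deg E e := card_pos.2 ⟨R, mem_filter.2 ⟨hR, he⟩⟩

lemma deg_le (h : Lin V E) (e : α) : deg E e ≤ V.card := by
  classical
  unfold deg
  have hne : ∀ R ∈ E.filter (fun R => e ∈ R), ∃ x ∈ V, x ∈ R ∧ x ≠ e := by
    intro R hR
    obtain ⟨h1, h2⟩ := mem_filter.1 hR
    obtain ⟨x, hx, hxe⟩ := exists_mem_ne (by rw [h.three R h1]; omega) e
    exact ⟨x, h.sub R h1 hx, hx, hxe⟩
  choose f hV hR hne' using hne
  refine card_le_card_of_injOn (fun R => if hr : R ∈ E.filter (fun R => e ∈ R) then f R hr else e)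
    ?_ ?_
  · intro R hR'
    have hR'' : R ∈ E.filter (fun R => e ∈ R) := by simpa using hR'
    simp only [dif_pos hR'']
    exact hV R hR''
  · intro R hR' S hS' he
    have r : R ∈ E.filter (fun R => e ∈ R) := by simpa using hR'
    have s : S ∈ E.filter (fun R => e ∈ R) := by simpa using hS'
    simp only [dif_pos r, dif_pos s] at he
    by_contra hRS
    have h2 := h.inter R (mem_filter.1 r).1 S (mem_filter.1 s).1 hRS
    have : 2 ≤ (R ∩ S).card := by
      refine one_lt_card.2 ⟨e, ?_, f R r, ?_, (hne' R r).symm⟩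
      · exact mem_inter.2 ⟨(mem_filter.1 r).2, (mem_filter.1 s).2⟩
      · exact mem_inter.2 ⟨hR R r, he ▸ hR S s⟩
    omega

lemma meet_card (h : Lin V E) {R T : Finset α} (hR : R ∈ E) (hT : T ∈ E) {e : α} (he : e ∈ R)
    (heT : e ∉ T) :
    (if ¬ Disjoint T R then 1 else 0 : ℕ) = ((R.erase e).filter fun f => f ∈ T).card := by
  have e1 : ((R.erase e).filter fun f => f ∈ T) = R ∩ T := by
    ext x; simp only [mem_filter, mem_erase, mem_inter]
    exact ⟨fun h => ⟨h.1.2, h.2⟩, fun h => ⟨⟨fun hxe => heT (hxe ▸ h.2), h.1⟩, h.2⟩⟩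
  rw [e1]
  have hne : R ≠ T := fun hh => heT (hh ▸ he)
  have := h.inter R hR T hT hne
  by_cases hd : Disjoint T R
  · rw [if_neg (not_not.2 hd), disjoint_iff_inter_eq_empty.1 hd.symm, card_empty]
  · rw [if_pos hd]
    have : 0 < (R ∩ T).card := card_pos.2 (by
      rw [nonempty_iff_ne_empty, ne_eq, ← disjoint_iff_inter_eq_empty]
      exact fun h' => hd h'.symm)
    omega

lemma loss_le_three (h : Lin V E) {T : Finset α} (hT : T ∈ E) {e : α} (he : e ∉ T) :
    loss E T e ≤ 3 := by
  classical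
  have key : loss E T e ≤ ∑ f ∈ T, (E.filter fun R => e ∈ R ∧ f ∈ R).card := by
    unfold loss
    refine le_trans (card_le_card ?_) card_biUnion_le
    intro R hR
    simp only [mem_filter] at hR
    obtain ⟨f, hf1, hf2⟩ := not_disjoint_iff.1 hR.2.2
    exact mem_biUnion.2 ⟨f, hf1, mem_filter.2 ⟨hR.1, hR.2.1, hf2⟩⟩
  refine key.trans ?_
  calc ∑ f ∈ T, (E.filter fun R => e ∈ R ∧ f ∈ R).card ≤ ∑ f ∈ T, 1 := by
        refine sum_le_sum fun f hf => card_le_one.2 fun R hR S hS => ?_
        simp only [mem_filter] at hR hS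
        by_contra hne
        have := h.inter R hR.1 S hS.1 hne
        have : 2 ≤ (R ∩ S).card :=
          one_lt_card.2 ⟨e, mem_inter.2 ⟨hR.2.1, hS.2.1⟩, f, mem_inter.2 ⟨hR.2.2, hS.2.2⟩,
            fun hef => he (hef ▸ hf)⟩
        omega
    _ = 3 := by simp [h.three T hT]

/-- Number of choices destroying `R` at `e`, but not choosing `e`. -/
lemma count_meet (h : Lin V E) {R : Finset α} (hR : R ∈ E) {e : α} (he : e ∈ R) :
    ((E.filter fun T => e ∉ T ∧ ¬ Disjoint T R).card : ℝ)
      = (∑ f ∈ R, (deg E f : ℝ)) - deg E e - 2 := by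
  classical
  have h1 : (E.filter fun T => e ∉ T ∧ ¬ Disjoint T R).card
      = ∑ f ∈ R.erase e, (E.filter fun T => e ∉ T ∧ f ∈ T).card := by
    simp only [card_filter]
    rw [sum_comm]
    refine sum_congr rfl fun T hT => ?_
    by_cases heT : e ∈ T
    · simp [heT]
    · simp only [heT, not_false_eq_true, true_and]
      rw [← card_filter]; exact h.meet_card hR hT he heT
  have h2 : ∀ f ∈ R.erase e, (E.filter fun T => e ∉ T ∧ f ∈ T).card + 1 = deg E f := by
    intro f hf
    obtain ⟨hfe, hfR⟩ := mem_erase.1 hf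
    have : E.filter (fun T => e ∈ T ∧ f ∈ T) = {R} := by
      ext T; simp only [mem_filter, mem_singleton]
      refine ⟨fun hT => ?_, fun hT => hT ▸ ⟨hR, he, hfR⟩⟩
      by_contra hne
      have := h.inter T hT.1 R hR hne
      have : 2 ≤ (T ∩ R).card :=
        one_lt_card.2 ⟨e, mem_inter.2 ⟨hT.2.1, he⟩, f, mem_inter.2 ⟨hT.2.2, hfR⟩, fun hh => hfe hh.symm⟩
      omega
    have h3 : 1 = (E.filter fun T => e ∈ T ∧ f ∈ T).card := by rw [this, card_singleton]
    rw [h3, deg, ← card_union_of_disjoint]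
    · congr 1; ext T; simp only [mem_union, mem_filter]; tauto
    · rw [disjoint_left]; intro T a b; simp only [mem_filter] at a b; tauto
  rw [h1]
  push_cast
  have h4 : ∑ f ∈ R.erase e, ((E.filter fun T => e ∉ T ∧ f ∈ T).card : ℝ)
      = ∑ f ∈ R.erase e, ((deg E f : ℝ) - 1) := by
    refine sum_congr rfl fun f hf => ?_
    rw [← h2 f hf]; push_cast; ring
  rw [h4, sum_sub_distrib, sum_const, card_erase_of_mem he, h.three R hR, nsmul_eq_mul, mul_one,
    ← add_sum_erase _ _ he]
  norm_num

/-- The basic double counting identity for losses. -/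
lemma sum_loss (h : Lin V E) (w : α → ℝ) :
    ∑ T ∈ E, ∑ e ∈ V \ T, w e * (loss E T e : ℝ)
      = ∑ R ∈ E, ∑ e ∈ R, w e * ((∑ f ∈ R, (deg E f : ℝ)) - deg E e - 2) := by
  classical
  calc ∑ T ∈ E, ∑ e ∈ V \ T, w e * (loss E T e : ℝ)
      = ∑ T ∈ E, ∑ R ∈ E, ∑ e ∈ R, (if e ∉ T ∧ ¬ Disjoint T R then w e else 0) := by
        refine sum_congr rfl fun T hT => ?_
        calc ∑ e ∈ V \ T, w e * (loss E T e : ℝ)
            = ∑ e ∈ V \ T, ∑ R ∈ E, (if e ∈ R ∧ ¬ Disjoint T R then w e else 0) := by
              refine sum_congr rfl fun e _ => ?_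
              rw [← sum_filter, sum_const, nsmul_eq_mul, mul_comm]; rfl
          _ = _ := by
              rw [sum_comm]
              refine sum_congr rfl fun R hR => ?_
              rw [← sum_filter, ← sum_filter]
              refine sum_congr ?_ fun _ _ => rfl
              ext x; simp only [mem_filter, mem_sdiff]
              exact ⟨fun hx => ⟨hx.2.1, hx.1.2, hx.2.2⟩,
                fun hx => ⟨⟨h.sub R hR hx.1, hx.2.1⟩, hx.1, hx.2.2⟩⟩
    _ = _ := by
        rw [sum_comm]
        refine sum_congr rfl fun R hR => ?_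
        rw [sum_comm]
        refine sum_congr rfl fun e he => ?_
        rw [← sum_filter, sum_const, nsmul_eq_mul, h.count_meet hR he, mul_comm]

/-- The number of hyperedges destroyed by the choice of `T`. -/
lemma card_drop (h : Lin V E) {T : Finset α} (hT : T ∈ E) :
    ((nextE E T).card : ℝ) = E.card - ((∑ f ∈ T, (deg E f : ℝ)) - 2) := by
  classical
  have h1 : ∑ R ∈ E, ((R ∩ T).card : ℝ) = ∑ f ∈ T, (deg E f : ℝ) := by
    unfold deg
    have : ∀ R ∈ E, ((R ∩ T).card : ℝ) = ∑ f ∈ T, (if f ∈ R then (1:ℝ) else 0) := by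
      intro R _
      rw [sum_boole]; congr 2; ext x; simp [and_comm]
    rw [sum_congr rfl this, sum_comm]
    exact sum_congr rfl fun f _ => by rw [sum_boole]
  have h2 : ∀ R ∈ E, ((R ∩ T).card : ℝ)
      = (if Disjoint T R then 0 else 1) + (if R = T then 2 else 0) := by
    intro R hR
    by_cases hRT : R = T
    · subst hRT
      have : ¬ Disjoint R R := by
        rw [disjoint_self]; intro h0
        have h3 := h.three R hR
        rw [h0] at h3; simp at h3
      rw [if_neg this, if_pos rfl, inter_self, h.three R hR]; norm_num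
    · have := h.inter R hR T hT hRT
      by_cases hd : Disjoint T R
      · rw [disjoint_iff_inter_eq_empty.1 hd.symm]; simp [hd, hRT]
      · have : (R ∩ T).card = 1 := by
          have : 0 < (R ∩ T).card := card_pos.2 (by
            rw [nonempty_iff_ne_empty, ne_eq, ← disjoint_iff_inter_eq_empty]
            exact fun h' => hd h'.symm)
          omega
        simp [this, hd, hRT]
  rw [← h1, sum_congr rfl h2, sum_add_distrib, sum_ite_eq' E T (fun _ => (2:ℝ)), if_pos hT]
  have h5 : ∑ R ∈ E, (if Disjoint T R then (0:ℝ) else 1)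
      = (E.filter fun R => ¬ Disjoint T R).card := by
    rw [← sum_boole]; exact sum_congr rfl fun R _ => by split_ifs <;> simp_all
  rw [h5]
  have h6 := card_filter_add_card_filter_not (s := E) (fun R => Disjoint T R)
  have : ((nextE E T).card : ℝ) + (E.filter fun R => ¬ Disjoint T R).card = E.card := by
    exact_mod_cast h6
  linarith

/-- `∑_T ∑_{f ∈ T} Y_f = ∑ Y_f²`. -/
lemma sum_deg_sq (h : Lin V E) :
    ∑ T ∈ E, ∑ f ∈ T, (deg E f : ℝ) = ∑ e ∈ V, (deg E e : ℝ) ^ 2 := by
  rw [h.sum_incidence]; exact sum_congr rfl fun e _ => by ring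

lemma sum_loss_le (h : Lin V E) :
    ∑ T ∈ E, ∑ e ∈ V \ T, (loss E T e : ℝ) ≤ 2 * ∑ e ∈ V, (deg E e : ℝ) ^ 2 := by
  have := h.sum_loss (fun _ => 1)
  simp only [one_mul] at this
  rw [this, ← h.sum_deg_sq, mul_sum]
  refine sum_le_sum fun R hR => ?_
  rw [sum_sub_distrib, sum_sub_distrib, sum_const, sum_const, h.three R hR]
  simp only [nsmul_eq_mul]; push_cast
  linarith

end Lin

end Vale.Agent.P046
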