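import Vale.Agent.P046.Cert

/-!
The exact one-point Lyapunov inequality behind the critical-rate estimate for the random greedy
process on 3-uniform linear hypergraphs.
-/

namespace Vale.Agent.P046

noncomputable section

/-- The denominator of the robust core. -/
def den (u : ℝ) : ℝ := 1 + u + 18 * u ^ 2

/-- The Lyapunov profile. -/
def prof (u : ℝ) : ℝ :=
  if u ≤ 0 then u ^ 2 / (2 * den u) else 2 / 5 * u ^ 2 / (1 + u) + u ^ 2 / (10 * den u)

/-- The derivative of `prof`. -/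
def profDeriv (u : ℝ) : ℝ :=
  if u ≤ 0 then u * (2 + u) / (2 * den u ^ 2)
  else 2 / 5 * (u * (2 + u)) / (1 + u) ^ 2 + u * (2 + u) / (10 * den u ^ 2)

/-- The dissipation of the profile at one point of a hyperedge. -/
def diss (u : ℝ) : ℝ := prof u * (2 + u) / (1 + u) - u * profDeriv u

lemma den_pos (u : ℝ) : 0 < den u := by
  unfold den; nlinarith [sq_nonneg (6 * u + 1 / 6)]

lemma diss_neg {u : ℝ} (h1 : -1 < u) (h2 : u ≤ 0) :
    diss u = 18 * u ^ 4 * (2 + u) / (2 * (1 + u) * den u ^ 2) := by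
  have hy : (1 + u : ℝ) ≠ 0 := by linarith
  have hM := (den_pos u).ne'
  simp only [diss, prof, profDeriv, if_pos h2]
  field_simp
  unfold den
  ring

lemma diss_pos {u : ℝ} (h2 : 0 < u) :
    diss u = 18 * u ^ 4 * (2 + u) / (10 * (1 + u) * den u ^ 2) := by
  have hy : (1 + u : ℝ) ≠ 0 := by linarith
  have hM := (den_pos u).ne'
  simp only [diss, prof, profDeriv, if_neg (not_le.2 h2)]
  field_simp
  unfold den
  ring

lemma diss_nonneg {u : ℝ} (h1 : -1 < u) : 0 ≤ diss u := by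
  have := den_pos u
  have h2 : (0:ℝ) < 2 + u := by linarith
  have h3 : (0:ℝ) < 1 + u := by linarith
  rcases le_or_gt u 0 with h | h
  · rw [diss_neg h1 h]; positivity
  · rw [diss_pos h]; positivity

lemma quad_nonneg {A B C σ : ℝ} (hA : 0 ≤ A) (hC : 0 ≤ C) (hσ : 0 ≤ σ)
    (h : 0 ≤ B ∨ B ^ 2 ≤ 4 * C * A) : 0 ≤ C + B * σ + A * σ ^ 2 := by
  rcases h with h | h
  · positivity
  · rcases hA.eq_or_lt with rfl | hA
    · have : B = 0 := by nlinarith [sq_nonneg B]
      subst this; simp [hC]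
    · have : 0 ≤ 4 * A * (C + B * σ + A * σ ^ 2) := by nlinarith [sq_nonneg (2 * A * σ + B)]
      nlinarith

lemma cubic_nonneg {C0 C1 C2 C3 σ q : ℝ} (hσ : 0 ≤ σ) (h3 : 0 ≤ C3) (h0 : 0 ≤ C0)
    (hA : 0 ≤ C2 + 2 * q * C3)
    (h : 0 ≤ C1 - q ^ 2 * C3 ∨ (C1 - q ^ 2 * C3) ^ 2 ≤ 4 * C0 * (C2 + 2 * q * C3)) :
    0 ≤ C0 + C1 * σ + C2 * σ ^ 2 + C3 * σ ^ 3 := by
  have e : C0 + C1 * σ + C2 * σ ^ 2 + C3 * σ ^ 3
      = (C0 + (C1 - q ^ 2 * C3) * σ + (C2 + 2 * q * C3) * σ ^ 2) + C3 * (σ * (σ - q) ^ 2) := by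
    ring
  rw [e]
  exact add_nonneg (quad_nonneg hA h0 hσ h) (by positivity)

/-- Negative sum, negative coordinate. -/
lemma core_nn {u S : ℝ} (h1 : -1 ≤ u) (h2 : u ≤ 0) (hS : S ≤ 0) :
    0 ≤ (1 - 6 * S) * (18 * u ^ 4 * (2 + u) + S * (u * (2 + u) * (1 + u)))
      - 2 * S * (1 - S) * (u - S / 3) * ((1 + u) * den u ^ 2) := by
  have e : (1 - 6 * S) * (18 * u ^ 4 * (2 + u) + S * (u * (2 + u) * (1 + u)))
      - 2 * S * (1 - S) * (u - S / 3) * ((1 + u) * den u ^ 2)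
      = (36 * u ^ 4 + 18 * u ^ 5)
        + (3 * u ^ 2 + 77 * u ^ 3 + 362 * u ^ 4 + 828 * u ^ 5 + 648 * u ^ 6) * (-S)
        + ((2 / 3) - 8 * u + 14 * u ^ 2 + (362 / 3) * u ^ 3 + 386 * u ^ 4 + 936 * u ^ 5
            + 648 * u ^ 6) * (-S) ^ 2
        + ((2 / 3) + 2 * u + 26 * u ^ 2 + (146 / 3) * u ^ 3 + 240 * u ^ 4 + 216 * u ^ 5)
            * (-S) ^ 3 := by
    unfold den; ring
  rw [e]
  have h0 : 0 ≤ 36 * u ^ 4 + 18 * u ^ 5 := by
    have : 36 * u ^ 4 + 18 * u ^ 5 = u ^ 4 * (36 + 18 * u) := by ring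
    rw [this]; exact mul_nonneg (by positivity) (by linarith)
  refine cubic_nonneg (q := -u) (by linarith) (cert_n3_nonneg h1 h2) h0 ?_ ?_
  · rcases le_or_gt u (-21 / 25) with h | h
    · have := cert_a1_nonneg_lo h1 h; linarith
    · have := cert_a1_nonneg h.le h2; linarith
  · rcases le_or_gt u (-21 / 25) with h | h
    · left
      have := cert_b1_nonneg h1 h; linarith
    · right
      have hd : 0 ≤ u ^ 4 * ((815 / 9) - 1646 * u - 6425 * u ^ 2 - (390860 / 9) * u ^ 3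
          - 185188 * u ^ 4 - 497456 * u ^ 5 - (7066804 / 9) * u ^ 6 - 475232 * u ^ 7
          + 170208 * u ^ 8 + 176256 * u ^ 9 - 46656 * u ^ 10) := by
        refine mul_nonneg (by positivity) ?_
        rcases le_or_gt u (-21 / 50) with h' | h'
        · exact cert_d1_0 h.le h'
        · exact cert_d1_1 h'.le h2
      linear_combination hd

/-- Negative sum, positive coordinate. -/
lemma core_np {u S : ℝ} (h1 : 0 ≤ u) (h2 : u ≤ 2) (hS : S ≤ 0) :
    0 ≤ (1 - 6 * S) * (18 / 5 * u ^ 4 * (2 + u) * (1 + u)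
        + S * (u * (2 + u) * (1 / 5 * (1 + u) ^ 2 + 4 / 5 * den u ^ 2)))
      - 2 * S * (1 - S) * (u - S / 3) * ((1 + u) ^ 2 * den u ^ 2) := by
  have e : (1 - 6 * S) * (18 / 5 * u ^ 4 * (2 + u) * (1 + u)
        + S * (u * (2 + u) * (1 / 5 * (1 + u) ^ 2 + 4 / 5 * den u ^ 2)))
      - 2 * S * (1 - S) * (u - S / 3) * ((1 + u) ^ 2 * den u ^ 2)
      = ((36 / 5) * u ^ 4 + (54 / 5) * u ^ 5 + (18 / 5) * u ^ 6)
        + (3 * u ^ 2 + (112 / 5) * u ^ 3 + (899 / 5) * u ^ 4 + (1918 / 5) * u ^ 5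
            + (5652 / 5) * u ^ 6 + 648 * u ^ 7) * (-S)
        + ((2 / 3) - (22 / 3) * u + 6 * u ^ 2 - (3164 / 15) * u ^ 3 - (176 / 15) * u ^ 4
            - (9806 / 5) * u ^ 5 + (144 / 5) * u ^ 6 + 648 * u ^ 7) * (-S) ^ 2
        + ((2 / 3) + (8 / 3) * u + 28 * u ^ 2 + (224 / 3) * u ^ 3 + (866 / 3) * u ^ 4
            + 456 * u ^ 5 + 216 * u ^ 6) * (-S) ^ 3 := by
    unfold den; ring
  rw [e]
  have hσ : 0 ≤ -S := by linarith
  have hn : 0 ≤ 3 * u ^ 2 + (112 / 5) * u ^ 3 + (899 / 5) * u ^ 4 + (1918 / 5) * u ^ 5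
      + (5652 / 5) * u ^ 6 + 648 * u ^ 7 := by positivity
  have hm := cert_m3_nonneg h1 h2
  have hq : 0 ≤ (3 * u ^ 2 + (112 / 5) * u ^ 3 + (899 / 5) * u ^ 4 + (1918 / 5) * u ^ 5
        + (5652 / 5) * u ^ 6 + 648 * u ^ 7)
      + ((2 / 3) - (22 / 3) * u + 6 * u ^ 2 - (3164 / 15) * u ^ 3 - (176 / 15) * u ^ 4
            - (9806 / 5) * u ^ 5 + (144 / 5) * u ^ 6 + 648 * u ^ 7) * (-S)
      + ((2 / 3) + (8 / 3) * u + 28 * u ^ 2 + (224 / 3) * u ^ 3 + (866 / 3) * u ^ 4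
            + 456 * u ^ 5 + 216 * u ^ 6) * (-S) ^ 2 := by
    refine quad_nonneg hm hn hσ ?_
    rcases le_or_gt u (3 / 40) with h | h
    · left; exact cert_c22_nonneg h1 h
    · right
      have := cert_d2 h.le h2
      linear_combination this
  have h0 : 0 ≤ (36 / 5) * u ^ 4 + (54 / 5) * u ^ 5 + (18 / 5) * u ^ 6 := by positivity
  linear_combination h0 + mul_nonneg hσ hq

/-- Positive sum, negative coordinate. -/
lemma core_pn {u S : ℝ} (h1 : -1 ≤ u) (h2 : u ≤ 0) (hS : 0 ≤ S) :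
    0 ≤ (1 + 12 * S) * (18 * u ^ 4 * (2 + u) + S * (u * (2 + u) * (1 + u)))
      - 2 * S * (1 + 5 * S) * (u - S / 3) * ((1 + u) * den u ^ 2) := by
  have e : (1 + 12 * S) * (18 * u ^ 4 * (2 + u) + S * (u * (2 + u) * (1 + u)))
      - 2 * S * (1 + 5 * S) * (u - S / 3) * ((1 + u) * den u ^ 2)
      = (36 * u ^ 4 + 18 * u ^ 5)
        + (-3 * u ^ 2 - 77 * u ^ 3 + 286 * u ^ 4 - 504 * u ^ 5 - 648 * u ^ 6) * S
        + ((2 / 3) + 16 * u + 32 * u ^ 2 - (988 / 3) * u ^ 3 - 490 * u ^ 4 - 3384 * u ^ 5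
            - 3240 * u ^ 6) * S ^ 2
        + ((10 / 3) + 10 * u + 130 * u ^ 2 + (730 / 3) * u ^ 3 + 1200 * u ^ 4 + 1080 * u ^ 5)
            * S ^ 3 := by
    unfold den; ring
  rw [e]
  have h0 : 0 ≤ 36 * u ^ 4 + 18 * u ^ 5 := by
    have : 36 * u ^ 4 + 18 * u ^ 5 = u ^ 4 * (36 + 18 * u) := by ring
    rw [this]; exact mul_nonneg (by positivity) (by linarith)
  have h3 := cert_p3_nonneg h1 h2
  rcases le_or_gt u (-1 / 5) with h | h
  · refine cubic_nonneg (q := 0) hS h3 h0 ?_ ?_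
    · have := cert_c32_nonneg h1 h; linarith
    · left
      have := mul_nonneg (sq_nonneg u) (cert_c31_nonneg h1 h)
      linear_combination this
  · refine cubic_nonneg (q := -u) hS h3 h0 ?_ (Or.inr ?_)
    · have := cert_a3_nonneg h.le h2; linarith
    · have := mul_nonneg (by positivity : (0:ℝ) ≤ u ^ 4) (cert_d3 h.le h2)
      linear_combination this

/-- Positive sum, positive coordinate. -/
lemma core_pp {u S : ℝ} (h1 : 0 ≤ u) (h2 : u ≤ 1 / 3) (hS : 0 ≤ S) :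
    0 ≤ (1 + 12 * S) * (18 / 5 * u ^ 4 * (2 + u) * (1 + u)
        + S * (u * (2 + u) * (1 / 5 * (1 + u) ^ 2 + 4 / 5 * den u ^ 2)))
      - 2 * S * (1 + 5 * S) * (u - S / 3) * ((1 + u) ^ 2 * den u ^ 2) := by
  have e : (1 + 12 * S) * (18 / 5 * u ^ 4 * (2 + u) * (1 + u)
        + S * (u * (2 + u) * (1 / 5 * (1 + u) ^ 2 + 4 / 5 * den u ^ 2)))
      - 2 * S * (1 + 5 * S) * (u - S / 3) * ((1 + u) ^ 2 * den u ^ 2)
      = ((36 / 5) * u ^ 4 + (54 / 5) * u ^ 5 + (18 / 5) * u ^ 6)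
        + (-3 * u ^ 2 - (112 / 5) * u ^ 3 - (251 / 5) * u ^ 4 - (946 / 5) * u ^ 5
            - (5328 / 5) * u ^ 6 - 648 * u ^ 7) * S
        + ((2 / 3) + (50 / 3) * u + 48 * u ^ 2 + (5908 / 15) * u ^ 3 + (3262 / 15) * u ^ 4
            + (13462 / 5) * u ^ 5 - (17568 / 5) * u ^ 6 - 3240 * u ^ 7) * S ^ 2
        + ((10 / 3) + (40 / 3) * u + 140 * u ^ 2 + (1120 / 3) * u ^ 3 + (4330 / 3) * u ^ 4
            + 2280 * u ^ 5 + 1080 * u ^ 6) * S ^ 3 := by
    unfold den; ring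
  rw [e]
  have h0 : 0 ≤ (36 / 5) * u ^ 4 + (54 / 5) * u ^ 5 + (18 / 5) * u ^ 6 := by positivity
  refine cubic_nonneg (q := u ^ 2 / 2) hS (cert_p4_nonneg h1 h2) h0 ?_ (Or.inr ?_)
  · have := cert_a4_nonneg h1 h2; linarith
  · have := mul_nonneg (by positivity : (0:ℝ) ≤ u ^ 4) (cert_d4 h1 h2)
    linear_combination this

lemma tangent_sum_neg {u S : ℝ} (h1 : -1 < u) (h : u ≤ 0) :
    diss u + S * profDeriv u
      = (18 * u ^ 4 * (2 + u) + S * (u * (2 + u) * (1 + u))) / (2 * (1 + u) * den u ^ 2) := by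
  have hy : (0:ℝ) < 1 + u := by linarith
  have hM := den_pos u
  rw [diss_neg h1 h]; simp only [profDeriv, if_pos h]
  field_simp

lemma tangent_sum_pos {u S : ℝ} (h : 0 < u) :
    diss u + S * profDeriv u
      = (18 / 5 * u ^ 4 * (2 + u) * (1 + u)
          + S * (u * (2 + u) * (1 / 5 * (1 + u) ^ 2 + 4 / 5 * den u ^ 2)))
          / (2 * (1 + u) ^ 2 * den u ^ 2) := by
  have hy : (0:ℝ) < 1 + u := by linarith
  have hM := den_pos u
  rw [diss_pos h]; simp only [profDeriv, if_neg (not_le.2 h)]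
  field_simp
  ring

/-- Tangent line bound for negative sums. -/
lemma tangent_neg {u S : ℝ} (h1 : -1 < u) (h2 : u ≤ 2) (hS : S ≤ 0) :
    S * (1 - S) / (1 - 6 * S) * (u - S / 3) ≤ diss u + S * profDeriv u := by
  have hy : (0:ℝ) < 1 + u := by linarith
  have hM := den_pos u
  have hb : (0:ℝ) < 1 - 6 * S := by linarith
  rcases le_or_gt u 0 with h | h
  · have := core_nn h1.le h hS
    rw [tangent_sum_neg h1 h, div_mul_eq_mul_div, div_le_div_iff₀ hb (by positivity)]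
    linarith
  · have := core_np h.le h2 hS
    rw [tangent_sum_pos h, div_mul_eq_mul_div, div_le_div_iff₀ hb (by positivity)]
    linarith

/-- Tangent line bound for positive sums. -/
lemma tangent_pos {u S : ℝ} (h1 : -1 < u) (h2 : u ≤ 1 / 3) (hS : 0 ≤ S) :
    S * (1 + 5 * S) / (1 + 12 * S) * (u - S / 3) ≤ diss u + S * profDeriv u := by
  have hy : (0:ℝ) < 1 + u := by linarith
  have hM := den_pos u
  have hb : (0:ℝ) < 1 + 12 * S := by linarith
  rcases le_or_gt u 0 with h | h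
  · have := core_pn h1.le h hS
    rw [tangent_sum_neg h1 h, div_mul_eq_mul_div, div_le_div_iff₀ hb (by positivity)]
    linarith
  · have := core_pp h.le h2 hS
    rw [tangent_sum_pos h, div_mul_eq_mul_div, div_le_div_iff₀ hb (by positivity)]
    linarith

lemma profDeriv_ge {u : ℝ} (h1 : -1 ≤ u) : -(9 / 100) ≤ profDeriv u := by
  have hM := den_pos u
  rcases le_or_gt u 0 with h | h
  · simp only [profDeriv, if_pos h]
    rw [le_div_iff₀ (by positivity)]
    unfold den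
    nlinarith [sq_nonneg (u + 139 / 1000), sq_nonneg (u * (u + 139 / 1000)), sq_nonneg u,
      mul_nonneg (mul_nonneg (sub_nonneg.2 h) (by linarith : (0:ℝ) ≤ 1 + u)) (sq_nonneg (u + 139 / 1000))]
  · simp only [profDeriv, if_neg (not_le.2 h)]
    have : (0:ℝ) ≤ 2 / 5 * (u * (2 + u)) / (1 + u) ^ 2 + u * (2 + u) / (10 * den u ^ 2) := by
      positivity
    linarith

lemma profDeriv_big {u : ℝ} (h1 : 1 / 3 ≤ u) : 9 / 50 ≤ profDeriv u := by
  have hM := den_pos u
  have h0 : ¬ u ≤ 0 := by linarith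
  simp only [profDeriv, if_neg h0]
  rcases le_or_gt u (9 / 25) with h | h
  · have e1 : 7 / 40 ≤ 2 / 5 * (u * (2 + u)) / (1 + u) ^ 2 := by
      rw [le_div_iff₀ (by positivity)]; nlinarith
    have e2 : 1 / 200 ≤ u * (2 + u) / (10 * den u ^ 2) := by
      rw [le_div_iff₀ (by positivity)]
      have : den u ≤ 37 / 10 := by unfold den; nlinarith
      nlinarith
    linarith
  · have e1 : 9 / 50 ≤ 2 / 5 * (u * (2 + u)) / (1 + u) ^ 2 := by
      rw [le_div_iff₀ (by positivity)]; nlinarith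
    have e2 : 0 ≤ u * (2 + u) / (10 * den u ^ 2) := by
      have : 0 < u := by linarith
      positivity
    linarith

/-- The key inequality: dissipation dominates at every hyperedge. -/
theorem key_ineq {a b c : ℝ} (ha : -1 < a) (hb : -1 < b) (hc : -1 < c) :
    0 ≤ diss a + diss b + diss c
      + (a + b + c) * (profDeriv a + profDeriv b + profDeriv c) := by
  set S := a + b + c with hS
  set G := profDeriv a + profDeriv b + profDeriv c with hG
  have da := diss_nonneg ha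
  have db := diss_nonneg hb
  have dc := diss_nonneg hc
  rcases le_or_gt S 0 with s | s
  · have ta := tangent_neg ha (by linarith) s
    have tb := tangent_neg hb (by linarith) s
    have tc := tangent_neg hc (by linarith) s
    have z : S * (1 - S) / (1 - 6 * S) * (a - S / 3) + S * (1 - S) / (1 - 6 * S) * (b - S / 3)
        + S * (1 - S) / (1 - 6 * S) * (c - S / 3) = 0 := by
      rw [hS]; ring
    nlinarith
  · rcases le_or_gt 0 G with g | g
    · positivity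
    · have la := profDeriv_ge ha.le
      have lb := profDeriv_ge hb.le
      have lc := profDeriv_ge hc.le
      have ua : a ≤ 1 / 3 := by
        refine le_of_not_gt fun h => ?_; linarith [profDeriv_big h.le]
      have ub : b ≤ 1 / 3 := by
        refine le_of_not_gt fun h => ?_; linarith [profDeriv_big h.le]
      have uc : c ≤ 1 / 3 := by
        refine le_of_not_gt fun h => ?_; linarith [profDeriv_big h.le]
      have ta := tangent_pos ha ua s.le
      have tb := tangent_pos hb ub s.le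
      have tc := tangent_pos hc uc s.le
      have z : S * (1 + 5 * S) / (1 + 12 * S) * (a - S / 3)
          + S * (1 + 5 * S) / (1 + 12 * S) * (b - S / 3)
          + S * (1 + 5 * S) / (1 + 12 * S) * (c - S / 3) = 0 := by
        rw [hS]; ring
      nlinarith

end

end Vale.Agent.P046
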