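import Vale.Agent.P046.Drift

/-!
The upper bound for random greedy matching on regular linear 3-uniform hypergraphs.
-/

namespace Vale.Agent.P046

open Finset

noncomputable section

variable {α : Type*} [DecidableEq α]

/-- Expectation of `φ` of the final point set, with fuel. -/
def expEnd (φ : Finset α → ℝ) : ℕ → Finset α → Finset (Finset α) → ℝ
  | 0, V, _ => φ V
  | k + 1, V, E => if E.card = 0 then φ V else
      (∑ T ∈ E, expEnd φ k (V \ T) (nextE E T)) / E.card

/-- The logarithmic parameter. -/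
def lg (D₀ : ℝ) : ℝ := 1 + Real.log (1 + Real.sqrt D₀)

/-- Invariant linking the number of points and the reference `D`. -/
def Track (v₀ L : ℝ) (V : Finset α) (D : ℝ) : Prop :=
  0 < D ∧
  |(V.card : ℝ) / √D - v₀| ≤ v₀ / 2 ∧
  |(V.card : ℝ) / √D - v₀| ≤ 1000 * √(√L) * (v₀ * √v₀) / √(V.card : ℝ)

/-- States in which the potential is small and the reference is large. -/
def GoodState (L : ℝ) (V : Finset α) (E : Finset (Finset α)) (D : ℝ) : Prop :=
  100000000000000000000 * L ≤ D ∧ pot V E D / √D ≤ √L * V.card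

/-- The noise compensated potential. -/
def comp (V : Finset α) (E : Finset (Finset α)) (D : ℝ) : ℝ :=
  pot V E D / √D + 6000000 * (E.card / (D * √D))

/-- The value function. -/
def valueBound (v₀ L : ℝ) (V : Finset α) (E : Finset (Finset α)) (D : ℝ) : ℝ :=
  20000000000 * v₀ * √L
    + (comp V E D + 48000000 * v₀ * Real.log (1 + (V.card : ℝ) / v₀)) / √L

lemma comp_nonneg (V : Finset α) (E : Finset (Finset α)) {D : ℝ} (hD : 0 ≤ D) :
    0 ≤ comp V E D := by
  have := pot_nonneg V E hD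
  unfold comp; positivity

lemma expEnd_card_le : ∀ (k : ℕ) (V : Finset α) (E : Finset (Finset α)),
    expEnd (fun W => (W.card : ℝ)) k V E ≤ V.card
  | 0, V, E => le_rfl
  | k + 1, V, E => by
      simp only [expEnd]
      split_ifs with h
      · exact le_rfl
      · have hq : (0:ℝ) < E.card := by exact_mod_cast Nat.pos_of_ne_zero h
        rw [div_le_iff₀ hq, mul_comm, ← nsmul_eq_mul, ← sum_const]
        refine sum_le_sum fun T _ => (expEnd_card_le k _ _).trans ?_
        exact_mod_cast card_le_card sdiff_subset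

variable {V : Finset α} {E : Finset (Finset α)}

lemma Lin.deg_two_le (h : Lin V E) (e : α) : deg E e * 2 ≤ V.card := by
  classical
  have hdis : Set.PairwiseDisjoint (↑(E.filter fun R => e ∈ R) : Set (Finset α))
      (fun R => R.erase e) := by
    intro R hR S hS hne
    simp only [coe_filter, Set.mem_setOf_eq] at hR hS
    rw [Function.onFun, disjoint_left]
    intro x hx hx'
    have := h.inter R hR.1 S hS.1 hne
    have : 2 ≤ (R ∩ S).card :=
      one_lt_card.2 ⟨e, mem_inter.2 ⟨hR.2, hS.2⟩, x,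
        mem_inter.2 ⟨(mem_erase.1 hx).2, (mem_erase.1 hx').2⟩, (mem_erase.1 hx).1.symm⟩
    omega
  have h1 := card_biUnion hdis
  have h2 : ((E.filter fun R => e ∈ R).biUnion fun R => R.erase e) ⊆ V := by
    intro x hx
    obtain ⟨R, hR, hx⟩ := mem_biUnion.1 hx
    exact h.sub R (mem_filter.1 hR).1 (mem_erase.1 hx).2
  have h3 : ∑ R ∈ E.filter (fun R => e ∈ R), (R.erase e).card = deg E e * 2 := by
    rw [sum_congr rfl (g := fun _ => 2) (fun R hR => ?_), sum_const, smul_eq_mul]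
    · rfl
    · rw [card_erase_of_mem (mem_filter.1 hR).2, h.three R (mem_filter.1 hR).1]
  rw [← h3, ← h1]
  exact card_le_card h2

/-- Facts available in a good state. -/
structure Facts (v₀ L : ℝ) (V : Finset α) (E : Finset (Finset α)) (D θ : ℝ) : Prop where
  m_ge : v₀ ≤ (V.card : ℝ)
  big : 100000000000000000000 ≤ D
  D_le : D ≤ V.card
  θ_pos : 0 < θ
  θ_small : θ ≤ 1 / 100000
  θ_def : θ = √(√L) * √((V.card : ℝ) / √D) / √(V.card : ℝ)
  close : |3 * (E.card : ℝ) - V.card * D| ≤ 101 * θ * (V.card * D)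
  inv_le : 1 / (V.card : ℝ) ≤ θ

lemma facts {v₀ L D : ℝ} (h : Lin V E) (hv : 0 < v₀) (hL : 1 ≤ L) (ht : Track v₀ L V D)
    (hg : GoodState L V E D) : ∃ θ, Facts v₀ L V E D θ := by
  obtain ⟨hD, hv1, -⟩ := ht
  obtain ⟨hB, hH⟩ := hg
  have hB' : (100000000000000000000:ℝ) ≤ D := by
    have := mul_le_mul_of_nonneg_left hL (by norm_num : (0:ℝ) ≤ 100000000000000000000)
    linarith
  have hsD : 2 ≤ √D := by rw [Real.le_sqrt (by norm_num) hD.le]; linarith
  have hvlo : v₀ / 2 ≤ (V.card : ℝ) / √D := by linarith [(abs_le.1 hv1).1]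
  have hm : v₀ ≤ (V.card : ℝ) := by
    rw [le_div_iff₀ (by positivity)] at hvlo; nlinarith
  have hm0 : 0 < (V.card : ℝ) := lt_of_lt_of_le hv hm
  set θ := √(√(L / D)) with hθ
  have hθ0 : 0 < θ := by positivity
  have hθ2 : θ ^ 2 = √(L / D) := Real.sq_sqrt (Real.sqrt_nonneg _)
  have hθ4 : θ ^ 4 = L / D := by
    rw [show θ ^ 4 = (θ ^ 2) ^ 2 by ring, hθ2, Real.sq_sqrt (by positivity)]
  have hθs : θ ≤ 1 / 100000 := by
    refine le_of_pow_le_pow_left₀ (n := 4) (by norm_num) (by norm_num) ?_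
    rw [hθ4, div_le_iff₀ hD]; norm_num; linarith
  have hθdef : θ = √(√L) * √((V.card : ℝ) / √D) / √(V.card : ℝ) := by
    rw [hθ, Real.sqrt_div' _ hD.le, Real.sqrt_div' _ (Real.sqrt_nonneg D),
      Real.sqrt_div' _ (Real.sqrt_nonneg D)]
    field_simp
  have hH' : ∑ e ∈ V, prof (dev E D e) ≤ V.card * θ ^ 2 := by
    rw [hθ2, Real.sqrt_div' _ hD.le, mul_div_assoc', le_div_iff₀ (by positivity)]
    have : pot V E D / √D = √D * ∑ e ∈ V, prof (dev E D e) := by
      unfold pot; rw [mul_div_right_comm, Real.div_sqrt]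
    rw [this] at hH; linarith
  have habs : ∑ e ∈ V, |dev E D e| ≤ 101 * θ * V.card := by
    calc ∑ e ∈ V, |dev E D e| ≤ ∑ e ∈ V, (θ + 100 * prof (dev E D e) / θ) :=
          sum_le_sum fun e _ => abs_le_prof (neg_one_le_dev E hD e) hθ0 (by linarith)
      _ = θ * V.card + 100 / θ * ∑ e ∈ V, prof (dev E D e) := by
          rw [sum_add_distrib, sum_const, nsmul_eq_mul, mul_sum, mul_comm θ]
          congr 1; exact sum_congr rfl fun e _ => by ring
      _ ≤ θ * V.card + 100 / θ * (V.card * θ ^ 2) := by gcongr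
      _ = _ := by field_simp; ring
  have hclose : |3 * (E.card : ℝ) - V.card * D| ≤ 101 * θ * (V.card * D) := by
    have e1 : 3 * (E.card : ℝ) - V.card * D = D * ∑ e ∈ V, dev E D e := by
      have hsd : ∑ e ∈ V, (deg E e : ℝ) = 3 * E.card := by exact_mod_cast h.sum_deg
      unfold dev
      rw [sum_sub_distrib, ← sum_div, hsd, sum_const, nsmul_eq_mul]; field_simp
    rw [e1, abs_mul, abs_of_pos hD]
    calc D * |∑ e ∈ V, dev E D e| ≤ D * (101 * θ * V.card) := by
          gcongr; exact le_trans (abs_sum_le_sum_abs _ _) habs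
      _ = _ := by ring
  have hDm : D ≤ V.card := by
    by_contra hc
    have h3 : (3 * E.card : ℝ) ≤ (V.card : ℝ) * V.card := by
      have : 3 * E.card ≤ V.card * V.card := by
        rw [← h.sum_deg, ← smul_eq_mul, ← sum_const]
        exact sum_le_sum fun e _ => h.deg_le e
      exact_mod_cast this
    have h4 := (abs_le.1 hclose).1
    have h5 : 101 * θ * (V.card * D) ≤ 1 / 2 * (V.card * D) := by gcongr; linarith
    have h8 : 101 * θ * (V.card * D) ≤ 1 / 100 * (V.card * D) := by gcongr; linarith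
    have h9 : (V.card : ℝ) * D * (99 / 100) ≤ 3 * E.card := by linarith
    have hh : (∑ e ∈ V, (deg E e : ℝ)) * 2 ≤ ∑ e ∈ V, (V.card : ℝ) := by
      rw [sum_mul]
      refine sum_le_sum fun e _ => ?_
      have : deg E e * 2 ≤ V.card := h.deg_two_le e
      exact_mod_cast this
    rw [sum_const, nsmul_eq_mul,
      show ∑ e ∈ V, (deg E e : ℝ) = 3 * E.card by exact_mod_cast h.sum_deg] at hh
    nlinarith
  refine ⟨θ, hm, hB', hDm, hθ0, hθs, hθdef, hclose, ?_⟩
  refine le_of_pow_le_pow_left₀ (n := 4) (by norm_num) hθ0.le ?_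
  rw [hθ4]
  calc (1 / (V.card : ℝ)) ^ 4 ≤ 1 / (V.card : ℝ) := by
        refine pow_le_of_le_one (by positivity) ?_ (by norm_num)
        rw [div_le_one hm0]; linarith
    _ ≤ 1 / D := by gcongr
    _ ≤ L / D := by gcongr

lemma fac_bound {m Q D a θ : ℝ} (hm : 8 ≤ m) (hQ0 : 0 < Q) (hD : 0 < D) (hθ0 : 0 < θ)
    (ha : 0 ≤ a) (ham : a ≤ 8 / m) (hadef : a = 2 * D / Q) (hQlo : m * D / 4 ≤ Q)
    (hclose : |3 * Q - m * D| ≤ 101 * θ * (m * D)) (hinv : 1 / m ≤ θ) :
    |(1 - 3 / m) * √(1 + a) - 1| ≤ 436 * θ / m := by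
  have hm0 : 0 < m := by linarith
  have u1 : √(1 + a) ≤ 1 + a / 2 := by
    rw [Real.sqrt_le_left (by linarith)]; nlinarith
  have u2 : 1 + a / 2 - a ^ 2 / 8 ≤ √(1 + a) := by
    apply Real.le_sqrt_of_sq_le
    have h1 : a ≤ 1 := le_trans ham (by rw [div_le_one hm0]; linarith)
    nlinarith [pow_nonneg ha 3, pow_nonneg ha 4]
  have u3 : |a / 2 - 3 / m| ≤ 404 * θ / m := by
    have e : a / 2 - 3 / m = -(3 * Q - m * D) / (Q * m) := by
      rw [hadef]; field_simp; ring
    rw [e, abs_div, abs_neg, abs_of_pos (by positivity : (0:ℝ) < Q * m),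
      div_le_div_iff₀ (by positivity) hm0]
    calc |3 * Q - m * D| * m ≤ 101 * θ * (m * D) * m := by gcongr
      _ ≤ 101 * θ * (4 * Q) * m :=
        mul_le_mul_of_nonneg_right
          (mul_le_mul_of_nonneg_left (by linarith) (by positivity)) hm0.le
      _ = _ := by ring
  have u4 : a ^ 2 / 8 + 3 / m * a ≤ 32 * θ / m := by
    calc a ^ 2 / 8 + 3 / m * a ≤ (8 / m) ^ 2 / 8 + 3 / m * (8 / m) := by gcongr
      _ = 32 / m * (1 / m) := by ring
      _ ≤ 32 / m * θ := by gcongr
      _ = _ := by ring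
  have p3 : 0 ≤ 1 - 3 / m := by
    rw [sub_nonneg, div_le_one hm0]; linarith
  have l1 := mul_le_mul_of_nonneg_left u1 p3
  have l2 := mul_le_mul_of_nonneg_left u2 p3
  have := abs_le.1 u3
  have e1 : 0 ≤ 3 / m * (a ^ 2 / 8) := by positivity
  have e2 : 0 ≤ 3 / m * a := by positivity
  have e3 : 404 * θ / m + 32 * θ / m = 436 * θ / m := by ring
  rw [abs_le]; constructor <;> linarith

lemma inv_sqrt_diff {m : ℝ} (hm : 8 ≤ m) :
    3 / (2 * (m * √m)) ≤ 1 / √(m - 3) - 1 / √m := by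
  have hm0 : 0 < m := by linarith
  have hs : 0 < √(m - 3) := Real.sqrt_pos.2 (by linarith)
  have hs2 : √(m - 3) ≤ √m := Real.sqrt_le_sqrt (by linarith)
  have hq1 := Real.mul_self_sqrt (show 0 ≤ m - 3 by linarith)
  have hq2 := Real.mul_self_sqrt hm0.le
  have e : 1 / √(m - 3) - 1 / √m = 3 / (√(m - 3) * √m * (√m + √(m - 3))) := by
    field_simp
    nlinarith
  rw [e]
  refine div_le_div_of_nonneg_left (by norm_num) (by positivity) ?_
  calc √(m - 3) * √m * (√m + √(m - 3)) ≤ √m * √m * (√m + √m) := by gcongr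
    _ = 2 * (m * √m) := by rw [hq2]; ring

lemma pot_arith {P Q D a H S : ℝ} (hP : P ≤ (Q - D) * H + 2000000 * (S / D))
    (ha : 0 ≤ a) (ha1 : a ≤ 1) (hQD : D ≤ Q) (haQ : a * Q = 2 * D) (hH : 0 ≤ H) (hS : 0 ≤ S)
    (hD : 0 < D) : P * √(1 + a) ≤ Q * H + 4000000 * (S / D) := by
  have hs1 : √(1 + a) ≤ 1 + a / 2 := by
    rw [Real.sqrt_le_left (by linarith)]; nlinarith
  have h2 : (Q - D) * √(1 + a) ≤ Q := by
    have := mul_le_mul_of_nonneg_left hs1 (sub_nonneg.2 hQD)
    have : 0 ≤ a * D := by positivity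
    nlinarith
  calc P * √(1 + a) ≤ ((Q - D) * H + 2000000 * (S / D)) * √(1 + a) := by gcongr
    _ = (Q - D) * √(1 + a) * H + √(1 + a) * (2000000 * (S / D)) := by ring
    _ ≤ Q * H + 2 * (2000000 * (S / D)) := by gcongr; linarith
    _ = _ := by ring

/-- Propagation of the tracking invariant. -/
lemma Track.next {v₀ L D θ : ℝ} (ht : Track v₀ L V D) (hv : 0 < v₀) (hL : 1 ≤ L)
    (hf : Facts v₀ L V E D θ) {V' : Finset α} (hV' : (V'.card : ℝ) + 3 = V.card) :
    Track v₀ L V' (nextD E D) := by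
  obtain ⟨hD, hv1, hv2⟩ := ht
  obtain ⟨hm, hB, hDm, hθ0, hθs, hθdef, hclose, hinv⟩ := hf
  set m : ℝ := (V.card : ℝ) with hmdef
  set Q : ℝ := (E.card : ℝ) with hQ
  have hm0 : 0 < m := by linarith
  have hcl := abs_le.1 hclose
  have h5 : 101 * θ * (m * D) ≤ 1 / 4 * (m * D) := by gcongr; linarith
  have hQlo : m * D / 4 ≤ Q := by linarith
  have hQ0 : 0 < Q := by
    have : 0 < m * D := by positivity
    linarith
  set a := 2 * D / Q with hadef
  have ha : 0 ≤ a := by positivity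
  have ham : a ≤ 8 / m := by
    rw [hadef, div_le_div_iff₀ hQ0 hm0]; nlinarith
  have hnD : nextD E D = D / (1 + a) := rfl
  have hV'm : (V'.card : ℝ) = m - 3 := by linarith
  set v := m / √D with hvdef
  have hsq : √(nextD E D) = √D / √(1 + a) := by
    rw [hnD, Real.sqrt_div' _ (by linarith)]
  have hv' : (V'.card : ℝ) / √(nextD E D) = v * ((1 - 3 / m) * √(1 + a)) := by
    rw [hV'm, hsq, hvdef]; field_simp
  have hfac : |(1 - 3 / m) * √(1 + a) - 1| ≤ 436 * θ / m :=
    fac_bound (by linarith) hQ0 hD hθ0 ha ham hadef hQlo hclose hinv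
  have hvle : v ≤ 2 * v₀ := by linarith [(abs_le.1 hv1).2]
  have hv0 : 0 ≤ v := by positivity
  have hθb : θ ≤ 3 / 2 * √(√L) * √v₀ / √m := by
    rw [hθdef]
    have : √v ≤ 3 / 2 * √v₀ := by
      calc √v ≤ √((3 / 2) ^ 2 * v₀) := Real.sqrt_le_sqrt (by norm_num; linarith)
        _ = 3 / 2 * √v₀ := by rw [Real.sqrt_mul (by norm_num), Real.sqrt_sq (by norm_num)]
    rw [show 3 / 2 * √(√L) * √v₀ = √(√L) * (3 / 2 * √v₀) by ring]
    gcongr
  have hsm : (1:ℝ) ≤ m - 3 := by linarith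
  have hinc : |(V'.card : ℝ) / √(nextD E D) - v|
      ≤ 1000 * √(√L) * (v₀ * √v₀) * (1 / √(m - 3) - 1 / √m) := by
    rw [hv', show v * ((1 - 3 / m) * √(1 + a)) - v = v * ((1 - 3 / m) * √(1 + a) - 1) by ring,
      abs_mul, abs_of_nonneg hv0]
    have h1 : v * |(1 - 3 / m) * √(1 + a) - 1| ≤ 2 * v₀ * (436 * θ / m) :=
      mul_le_mul hvle hfac (abs_nonneg _) (by linarith)
    have h2 : 2 * v₀ * (436 * θ / m) ≤ 2 * v₀ * (436 * (3 / 2 * √(√L) * √v₀ / √m) / m) := by gcongr
    have h3 : 3 / (2 * (m * √m)) ≤ 1 / √(m - 3) - 1 / √m := inv_sqrt_diff (by linarith)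
    calc v * |(1 - 3 / m) * √(1 + a) - 1|
        ≤ 2 * v₀ * (436 * (3 / 2 * √(√L) * √v₀ / √m) / m) := h1.trans h2
      _ = 872 * √(√L) * (v₀ * √v₀) * (3 / (2 * (m * √m))) := by ring
      _ ≤ 1000 * √(√L) * (v₀ * √v₀) * (3 / (2 * (m * √m))) := by gcongr; norm_num
      _ ≤ _ := by gcongr
  have hnew : |(V'.card : ℝ) / √(nextD E D) - v₀|
      ≤ 1000 * √(√L) * (v₀ * √v₀) / √(m - 3) := by
    refine (abs_sub_le _ v _).trans ?_
    calc _ ≤ 1000 * √(√L) * (v₀ * √v₀) * (1 / √(m - 3) - 1 / √m)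
          + 1000 * √(√L) * (v₀ * √v₀) / √m := add_le_add hinc hv2
      _ = _ := by ring
  refine ⟨by rw [hnD]; positivity, hnew.trans ?_, by rw [← hV'm] at hnew; exact hnew⟩
  have h6 : √(m - 3) ≥ 9 / 10 * √m := by
    apply Real.le_sqrt_of_sq_le
    rw [mul_pow, Real.sq_sqrt hm0.le]; linarith
  have h7 : √v₀ / 2 ≤ √v := by
    calc √v₀ / 2 = √(v₀ / 4) := by
          rw [Real.sqrt_div' _ (by norm_num), show (4:ℝ) = 2 ^ 2 by norm_num,
            Real.sqrt_sq (by norm_num)]
      _ ≤ √v := Real.sqrt_le_sqrt (by linarith [(abs_le.1 hv1).1])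
  have hsm0 : 0 < √m := Real.sqrt_pos.2 hm0
  calc 1000 * √(√L) * (v₀ * √v₀) / √(m - 3)
      ≤ 1000 * √(√L) * (v₀ * (2 * √v)) / (9 / 10 * √m) := by gcongr; linarith
    _ = 20000 / 9 * v₀ * θ := by rw [hθdef]; field_simp; ring
    _ ≤ 20000 / 9 * v₀ * (1 / 100000) := by gcongr
    _ ≤ v₀ / 2 := by linarith

lemma combine_arith {Q C C' D m v₀ L l l' : ℝ} (hL : 1 ≤ L) (hv : 0 < v₀) (hm : 0 < m)
    (key : C' ≤ Q * C + 36000000 * (Q / √D)) (hinv : 1 / √D ≤ 2 * v₀ / m)
    (hlog : l' + 3 / (2 * m) ≤ l) (hQ : 0 < Q) :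
    Q * (20000000000 * v₀ * √L) + (C' + Q * (48000000 * v₀ * l')) / √L
      ≤ Q * (20000000000 * v₀ * √L + (C + 48000000 * v₀ * l) / √L) := by
  have h6 : 36000000 * (Q / √D) ≤ 48000000 * v₀ * Q * (3 / (2 * m)) := by
    calc 36000000 * (Q / √D) = 36000000 * Q * (1 / √D) := by ring
      _ ≤ 36000000 * Q * (2 * v₀ / m) := by gcongr
      _ = _ := by ring
  have h7 := mul_le_mul_of_nonneg_left hlog (by positivity : (0:ℝ) ≤ 48000000 * v₀ * Q)
  rw [mul_add, mul_div_assoc']
  gcongr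
  linarith

/-- In a good state the value function is superharmonic. -/
lemma good_step {v₀ L D θ : ℝ} (h : Lin V E) (hv : 0 < v₀) (hL : 1 ≤ L)
    (ht : Track v₀ L V D) (hf : Facts v₀ L V E D θ) :
    0 < E.card ∧
    ∑ T ∈ E, valueBound v₀ L (V \ T) (nextE E T) (nextD E D)
      ≤ E.card * valueBound v₀ L V E D := by
  obtain ⟨hD, hv1, -⟩ := ht
  obtain ⟨hm, hB, hDm, hθ0, hθs, -, hclose, -⟩ := hf
  set m : ℝ := (V.card : ℝ) with hmdef
  set Q : ℝ := (E.card : ℝ) with hQ
  have hm0 : 0 < m := by linarith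
  have hcl := abs_le.1 hclose
  have h5 : 101 * θ * (m * D) ≤ 1 / 4 * (m * D) := by gcongr; linarith
  have hQlo : m * D / 4 ≤ Q := by linarith
  have hQD : D ≤ Q := by nlinarith
  have hQ0 : 0 < Q := by linarith
  refine ⟨by rw [hQ] at hQ0; exact_mod_cast hQ0, ?_⟩
  set a := 2 * D / Q with hadef
  have ha : 0 ≤ a := by positivity
  have ha1 : a ≤ 1 := by
    rw [hadef, div_le_one hQ0]; nlinarith
  have haQ : a * Q = 2 * D := by rw [hadef]; field_simp
  have hs1 : √(1 + a) ≤ 1 + a / 2 := by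
    rw [Real.sqrt_le_left (by linarith)]; nlinarith
  have hsD : 0 < √D := Real.sqrt_pos.2 hD
  have hnD : nextD E D = D / (1 + a) := rfl
  have hsq : √(nextD E D) = √D / √(1 + a) := by rw [hnD, Real.sqrt_div' _ (by linarith)]
  -- potential
  set S := degSq V E with hS
  have hS0 : 0 ≤ S := degSq_nonneg V E
  have hSQ : 6 * Q ≤ S := by
    have := h.sq_card_le_degSq
    rw [← hQ, ← hS, ← hmdef] at this
    have h1 : m * Q * (D / 4 * 9) ≤ m * S := by nlinarith
    nlinarith
  set SQ := ∑ T ∈ E, ((nextE E T).card : ℝ) with hSQdef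
  have hdrop : SQ = Q ^ 2 - S + 2 * Q := by
    rw [hSQdef, sum_congr rfl fun T hT => h.card_drop hT, sum_sub_distrib, sum_sub_distrib,
      sum_const, sum_const, nsmul_eq_mul, nsmul_eq_mul, h.sum_deg_sq, hS, degSq, hQ]
    ring
  have hd := h.drift (D := D) (by linarith) hDm (by rw [← hmdef]; linarith) hQlo
  rw [← hQ, ← hS] at hd
  have hH0 := pot_nonneg V E hD.le
  have key1 : ∑ T ∈ E, pot (V \ T) (nextE E T) (nextD E D) / √(nextD E D)
      ≤ Q * (pot V E D / √D) + 4000000 * (S / (D * √D)) := by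
    rw [← sum_div, hsq, div_div_eq_mul_div]
    have h4 := pot_arith hd ha ha1 hQD haQ hH0 hS0 hD
    calc _ ≤ (Q * pot V E D + 4000000 * (S / D)) / √D := by gcongr
      _ = _ := by field_simp
  have key2 : ∑ T ∈ E, ((nextE E T).card : ℝ) / (nextD E D * √(nextD E D))
      ≤ (Q ^ 2 - S + 2 * Q + 6 * D * Q) / (D * √D) := by
    rw [← sum_div, ← hSQdef, hsq, hnD, div_mul_div_comm, div_div_eq_mul_div]
    refine div_le_div_of_nonneg_right ?_ (by positivity)
    have hSQ0 : 0 ≤ SQ := sum_nonneg fun _ _ => Nat.cast_nonneg _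
    calc SQ * ((1 + a) * √(1 + a)) ≤ SQ * (1 + 3 * a) :=
          mul_le_mul_of_nonneg_left (by nlinarith) hSQ0
      _ = SQ + 3 * a * SQ := by ring
      _ ≤ SQ + 3 * a * Q ^ 2 := by
          have : SQ ≤ Q ^ 2 := by linarith
          gcongr
      _ = _ := by rw [hdrop, show 3 * a * Q ^ 2 = 3 * (a * Q) * Q by ring, haQ]; ring
  have key : ∑ T ∈ E, comp (V \ T) (nextE E T) (nextD E D)
      ≤ Q * comp V E D + 36000000 * (Q / √D) := by
    unfold comp
    rw [sum_add_distrib, ← mul_sum, ← hQ]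
    refine (add_le_add key1 (mul_le_mul_of_nonneg_left key2 (by norm_num))).trans ?_
    have : 0 ≤ (2000000 * S - 12000000 * Q) / (D * √D) := by
      apply div_nonneg _ (by positivity); linarith
    have e : 6000000 * ((Q ^ 2 - S + 2 * Q + 6 * D * Q) / (D * √D)) + 4000000 * (S / (D * √D))
        = Q * (6000000 * (Q / (D * √D))) + 36000000 * (Q / √D)
          - (2000000 * S - 12000000 * Q) / (D * √D) := by
      field_simp; ring
    linarith
  -- the logarithm
  have hinv : 1 / √D ≤ 2 * v₀ / m := by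
    have := (abs_le.1 hv1).2
    rw [div_le_div_iff₀ hsD hm0]
    have h2 : m / √D ≤ 2 * v₀ := by linarith
    rw [div_le_iff₀ hsD] at h2; linarith
  have hlog : Real.log (1 + (m - 3) / v₀) + 3 / (2 * m) ≤ Real.log (1 + m / v₀) := by
    have hp : (0:ℝ) < 1 + (m - 3) / v₀ := by
      have : 0 ≤ (m - 3) / v₀ := div_nonneg (by linarith) hv.le
      linarith
    have hp' : (0:ℝ) < 1 + m / v₀ := by positivity
    have := Real.one_sub_inv_le_log_of_pos (div_pos hp' hp)
    rw [Real.log_div hp'.ne' hp.ne', inv_div] at this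
    have e : 1 - (1 + (m - 3) / v₀) / (1 + m / v₀) = 3 / (v₀ + m) := by
      field_simp; ring
    rw [e] at this
    have : 3 / (2 * m) ≤ 3 / (v₀ + m) := by gcongr; linarith
    linarith
  have hVT : ∀ T ∈ E, ((V \ T).card : ℝ) = m - 3 := fun T hT => by
    have : ((V \ T).card : ℝ) + 3 = m := by rw [hmdef]; exact_mod_cast h.card_next hT
    linarith
  have e2 : ∀ T ∈ E, valueBound v₀ L (V \ T) (nextE E T) (nextD E D)
      = 20000000000 * v₀ * √L + (comp (V \ T) (nextE E T) (nextD E D)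
          + 48000000 * v₀ * Real.log (1 + (m - 3) / v₀)) / √L := by
    intro T hT; unfold valueBound; rw [hVT T hT]
  rw [sum_congr rfl e2, sum_add_distrib, sum_const, nsmul_eq_mul, ← sum_div, sum_add_distrib,
    sum_const, nsmul_eq_mul, ← hQ]
  exact combine_arith hL hv hm0 key hinv hlog hQ0

/-- The value function bounds the expected number of uncovered points. -/
theorem expEnd_le {v₀ L : ℝ} (hv : 0 < v₀) (hL : 1 ≤ L) :
    ∀ (k : ℕ) (V : Finset α) (E : Finset (Finset α)) (D : ℝ), Lin V E → E.card ≤ k →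
      Track v₀ L V D →
      expEnd (fun W => (W.card : ℝ)) k V E ≤ valueBound v₀ L V E D := by
  intro k
  induction k using Nat.strong_induction_on with
  | _ k ih =>
  intro V E D h hk ht
  have hD := ht.1
  have hm0 : (0:ℝ) ≤ (V.card : ℝ) := Nat.cast_nonneg _
  by_cases hg : GoodState L V E D
  · obtain ⟨θ, hf⟩ := facts h hv hL ht hg
    obtain ⟨hE, hstep⟩ := good_step h hv hL ht hf
    obtain ⟨j, rfl⟩ : ∃ j, k = j + 1 := ⟨k - 1, by omega⟩
    simp only [expEnd]
    rw [if_neg hE.ne', div_le_iff₀ (by exact_mod_cast hE), mul_comm]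
    refine le_trans (sum_le_sum fun T hT => ?_) hstep
    refine ih j (Nat.lt_succ_self j) _ _ _ (h.next T) ?_ (ht.next hv hL hf ?_)
    · have := nextE_card_lt hT (card_pos.1 (by rw [h.three T hT]; norm_num))
      omega
    · exact_mod_cast h.card_next hT
  · have h1 : expEnd (fun W => (W.card : ℝ)) k V E ≤ V.card := expEnd_card_le k V E
    refine h1.trans ?_
    have hc := comp_nonneg V E hD.le
    have hlog : 0 ≤ Real.log (1 + (V.card : ℝ) / v₀) :=
      Real.log_nonneg (by have := div_nonneg hm0 hv.le; linarith)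
    have hsL : 0 < √L := Real.sqrt_pos.2 (by linarith)
    unfold valueBound
    unfold GoodState at hg
    rcases not_and_or.1 hg with hb | hb
    · have hvm := (abs_le.1 ht.2.1).2
      have h2 : (V.card : ℝ) ≤ 3 / 2 * v₀ * √D := by
        rw [← div_le_iff₀ (Real.sqrt_pos.2 hD)]; linarith
      have h3 : √D ≤ 10000000000 * √L := by
        calc √D ≤ √(10000000000 ^ 2 * L) := Real.sqrt_le_sqrt (by norm_num; linarith [not_le.1 hb])
          _ = _ := by rw [Real.sqrt_mul (by norm_num), Real.sqrt_sq (by norm_num)]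
      have h4 : 3 / 2 * v₀ * √D ≤ 3 / 2 * v₀ * (10000000000 * √L) := by gcongr
      have : 0 ≤ (comp V E D + 48000000 * v₀ * Real.log (1 + (V.card : ℝ) / v₀)) / √L := by
        positivity
      have : 0 ≤ v₀ * √L := by positivity
      linarith
    · have h5 : (V.card : ℝ) ≤ (comp V E D + 48000000 * v₀ * Real.log (1 + (V.card : ℝ) / v₀)) / √L := by
        rw [le_div_iff₀ hsL]
        have : pot V E D / √D ≤ comp V E D := by
          unfold comp
          have : 0 ≤ 6000000 * ((E.card : ℝ) / (D * √D)) := by positivity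
          linarith
        have : 0 ≤ 48000000 * v₀ * Real.log (1 + (V.card : ℝ) / v₀) := by positivity
        linarith [not_le.1 hb]
      have : 0 ≤ 20000000000 * v₀ * √L := by positivity
      linarith

/-- Upper bound for regular linear 3-uniform hypergraphs. -/
theorem Lin.expEnd_regular_le (h : Lin V E) {d : ℕ} (hd : 0 < d)
    (hreg : ∀ e ∈ V, deg E e = d) :
    expEnd (fun W => (W.card : ℝ)) E.card V E
      ≤ 100000000000 * ((V.card : ℝ) / √(d : ℝ)) * √(lg d) := by
  rcases V.eq_empty_or_nonempty with rfl | hne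
  · refine le_trans (expEnd_card_le _ _ _) ?_
    simp
  set D : ℝ := (d : ℝ) with hDdef
  have hD : 0 < D := by rw [hDdef]; exact_mod_cast hd
  set v₀ := (V.card : ℝ) / √D with hv₀
  have hm : 0 < (V.card : ℝ) := by exact_mod_cast hne.card_pos
  have hv : 0 < v₀ := by positivity
  have hl0 : 0 ≤ Real.log (1 + √D) := Real.log_nonneg (by linarith [Real.sqrt_nonneg D])
  have hL : 1 ≤ lg D := by unfold lg; linarith
  have ht : Track v₀ (lg D) V D := by
    refine ⟨hD, ?_, ?_⟩ <;> rw [← hv₀, sub_self, abs_zero] <;> positivity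
  refine (expEnd_le hv hL _ V E D h le_rfl ht).trans ?_
  have hpot : pot V E D = 0 := by
    unfold pot
    rw [sum_eq_zero, mul_zero]
    intro e he
    have : dev E D e = 0 := by unfold dev; rw [hreg e he, hDdef]; field_simp; ring
    rw [this, prof_zero]
  have hE : (E.card : ℝ) = V.card * D / 3 := by
    have := h.sum_deg
    rw [sum_congr rfl hreg, sum_const, smul_eq_mul] at this
    have : (3 * E.card : ℝ) = V.card * D := by rw [hDdef]; exact_mod_cast this.symm
    linarith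
  have hc : comp V E D = 2000000 * v₀ := by
    unfold comp
    rw [hpot, hE, hv₀]; field_simp; ring
  have hlog : Real.log (1 + (V.card : ℝ) / v₀) ≤ lg D := by
    have : (V.card : ℝ) / v₀ = √D := by rw [hv₀]; field_simp
    rw [this]; unfold lg; linarith
  have hsL : 1 ≤ √(lg D) := by rw [Real.one_le_sqrt]; exact hL
  unfold valueBound
  rw [hc]
  have h2 : (2000000 * v₀ + 48000000 * v₀ * Real.log (1 + (V.card : ℝ) / v₀)) / √(lg D)
      ≤ 50000000 * v₀ * √(lg D) := by
    rw [div_le_iff₀ (by linarith), mul_assoc _ (√(lg D)), Real.mul_self_sqrt (by linarith)]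
    nlinarith
  have : 0 ≤ v₀ * √(lg D) := by positivity
  linarith

end

end Vale.Agent.P046
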